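import Mathlib

/-!
# P139 / block [P] (profile) : common definitions and exact interface statements
-/

open Set Complex

namespace Vale.Agent.P139.H460

/-- `Q'' + ((d-1)/r + i r/2) Q' + (w + i a) Q = P(r) Q` on `s`, written as a first order system
for the pair `(Q, Q1)`. -/
structure RadODE (d : ℕ) (a w : ℝ) (P : ℝ → ℝ) (Q Q1 : ℝ → ℂ) (s : Set ℝ) : Prop where
  h1 : ∀ r ∈ s, HasDerivAt Q (Q1 r) r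
  h2 : ∀ r ∈ s, HasDerivAt Q1
    (-((((d:ℝ) - 1) / r : ℝ) + I * (r / 2 : ℝ)) * Q1 r - ((w:ℂ) + I * a) * Q r + P r * Q r) r

/-- cut-off of the potential in the second phase: `4` for `s ≤ η`, `θ^n` for `s ≥ 2η`. -/
noncomputable def omg (n : ℕ) (η θ s : ℝ) : ℝ := max (θ ^ n) (min 4 (4 * (2 - s / η)))

/-- regular solution of the truncated profile equation on `[0,b]`. -/
structure RegSol (d n : ℕ) (w q0 b : ℝ) (Q Q1 : ℝ → ℂ) : Prop where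
  cQ : ContinuousOn Q (Icc 0 b)
  cQ1 : ContinuousOn Q1 (Icc 0 b)
  ode : RadODE d (1 / n) w (fun r => min (‖Q r‖ ^ n) 4) Q Q1 (Ioo 0 b)
  Q0 : Q 0 = (q0 : ℂ)
  Q10 : Q1 0 = 0

/-- `τ` is the first radius where `|Q|^n = w/2` (coming from above). -/
structure FirstHit (n : ℕ) (w : ℝ) (Q : ℝ → ℂ) (τ : ℝ) : Prop where
  pos : 0 < τ
  above : ∀ r ∈ Icc 0 τ, w / 2 ≤ ‖Q r‖ ^ n
  hit : ‖Q τ‖ ^ n = w / 2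

/-- [P.CORE] (owner: helper499), all constants uniform in `n ≥ N`, `w`, `q0`, `τ ≤ b`. -/
def CoreStatement (d : ℕ) : Prop :=
  ∀ wm wp : ℝ, 0 < wm → wm ≤ wp → wp ≤ 1 →
  ∃ C > 0, ∃ N : ℕ, ∀ n ≥ N, ∀ w ∈ Icc wm wp, ∀ q0 > 0, ∀ b τ : ℝ, τ ≤ 4 → τ < b →
    ∀ Q Q1 : ℝ → ℂ, RegSol d n w q0 b Q Q1 → FirstHit n w Q τ →
    (∀ r ∈ Icc 0 τ, ‖Q r‖ ^ n ≤ w + C / n) ∧
    (∀ r ∈ Icc 0 τ, ‖Q1 r‖ ≤ C / Real.sqrt n) ∧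
    ((starRingEnd ℂ (Q τ)) * Q1 τ).re < 0 ∧
    (∀ r ∈ Icc 0 τ, w * (1 - C / n - 2 * Real.exp (-(Real.sqrt n / C) * (τ - r))) ≤ ‖Q r‖ ^ n) ∧
    (∀ r ∈ Icc 0 τ, |(Q1 r / Q r).im| ≤ C * r / n) ∧
    (∀ r ∈ Icc 0 τ, (Q1 r / Q r).re ≤ C / (n:ℝ)^2)

/-- [P.TRANSIT] (owner: helper307): second phase, no certificate needed. -/
def TransitStatement (d : ℕ) : Prop :=
  ∀ Rm Rp wm wp : ℝ, 0 < Rm → Rm ≤ Rp → 0 < wm → wm ≤ wp → wp ≤ 1 →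
  ∃ η0 > 0, ∃ c > 0, ∀ η ∈ Ioc 0 (η0 / 2), ∀ θ ∈ Ioo (0:ℝ) 1, ∀ r1 > Rp + η0, ∀ C0 > 0,
  ∃ C > 0, ∃ N : ℕ, ∀ n ≥ N, ∀ w ∈ Icc wm wp, ∀ R ∈ Icc Rm Rp, ∀ Y Y1 : ℝ → ℂ,
    ContinuousOn Y (Icc R r1) → ContinuousOn Y1 (Icc R r1) →
    RadODE d (1 / n) w (fun r => min (‖Y r‖ ^ n) (omg n η θ (r - R))) Y Y1 (Ioo R r1) →
    Y R = (((w / 2) ^ (1 / (n:ℝ)) : ℝ) : ℂ) → (Y1 R).re ≤ 0 → ‖Y1 R‖ ≤ C0 / Real.sqrt n →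
    (∀ r ∈ Icc R (R + η0), ‖Y r‖ ^ n ≤ (w / 2) * Real.exp (-(c * n * (r - R)^2))) ∧
    (∀ r ∈ Ioc R (R + η0), ((starRingEnd ℂ (Y r)) * Y1 r).re < 0) ∧
    ∀ Z Z1 : ℝ → ℂ, ContinuousOn Z (Icc R r1) → ContinuousOn Z1 (Icc R r1) →
      RadODE d 0 w (fun _ => 0) Z Z1 (Ioo R r1) → Z R = 1 → Z1 R = 0 →
      ∀ r ∈ Icc R r1, ‖Y r - Z r‖ ≤ C / Real.sqrt n ∧ ‖Y1 r - Z1 r‖ ≤ C / Real.sqrt n

end Vale.Agent.P139.H460
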