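import Mathlib

/-!
# P139 / H460 / FF1 : the slow solution operator on a half plane
-/

open MeasureTheory Set Filter Topology Complex

namespace Vale.Agent.P139.H460

/-- The open half plane `Re z > x`. -/
def HP (x : ℝ) : Set ℂ := {z | x < z.re}

lemma mem_HP {x : ℝ} {z : ℂ} : z ∈ HP x ↔ x < z.re := Iff.rfl

lemma isOpen_HP (x : ℝ) : IsOpen (HP x) := isOpen_lt continuous_const continuous_re

/-- Primitive along a ray. -/
theorem ray_primitive {U : Set ℂ} (hU : IsOpen U) {e : ℂ}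
    (he : ∀ z ∈ U, ∀ t : ℝ, 0 ≤ t → z + t * e ∈ U)
    {Ψ : ℂ → ℂ} (hΨ : DifferentiableOn ℂ Ψ U) {z : ℂ} (hz : z ∈ U)
    {r : ℝ} (hr : 0 < r) {B : ℝ → ℝ} (hB : IntegrableOn B (Ioi 0)) (hB0 : Tendsto B atTop (𝓝 0))
    (hb : ∀ ζ ∈ Metric.ball z r, ∀ t : ℝ, 0 ≤ t → ‖Ψ (ζ + t * e)‖ ≤ B t) :
    HasDerivAt (fun ζ => - e * ∫ t in Ioi (0:ℝ), Ψ (ζ + t * e)) (Ψ z) z := by
  -- shrink the ball
  obtain ⟨r0, hr0, hball⟩ := Metric.isOpen_iff.1 hU z hz
  set ρ := min r r0 with hρ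
  have hρpos : 0 < ρ := lt_min hr hr0
  have hdiffAt : ∀ ζ ∈ U, ∀ t : ℝ, 0 ≤ t → DifferentiableAt ℂ Ψ (ζ + t * e) := fun ζ hζ t ht =>
    hΨ.differentiableAt (hU.mem_nhds (he ζ hζ t ht))
  have hcont : ∀ ζ ∈ U, ContinuousOn (fun t : ℝ => Ψ (ζ + t * e)) (Ici 0) := by
    intro ζ hζ t ht
    have h1 : ContinuousAt Ψ (ζ + t * e) := (hdiffAt ζ hζ t ht).continuousAt
    have h2 : ContinuousAt (fun t : ℝ => ζ + (t : ℂ) * e) t := by fun_prop
    exact (ContinuousAt.comp (f := fun t : ℝ => ζ + (t : ℂ) * e) h1 h2).continuousWithinAt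
  have hderivcont : ContinuousOn (deriv Ψ) U := (hΨ.deriv hU).continuousOn
  have hcont' : ∀ ζ ∈ U, ContinuousOn (fun t : ℝ => deriv Ψ (ζ + t * e)) (Ici 0) := by
    intro ζ hζ t ht
    have h1 : ContinuousAt (deriv Ψ) (ζ + t * e) :=
      hderivcont.continuousAt (hU.mem_nhds (he ζ hζ t ht))
    have h2 : ContinuousAt (fun t : ℝ => ζ + (t : ℂ) * e) t := by fun_prop
    exact (ContinuousAt.comp (f := fun t : ℝ => ζ + (t : ℂ) * e) h1 h2).continuousWithinAt
  have hmain := hasDerivAt_integral_of_dominated_loc_of_deriv_le (μ := volume.restrict (Ioi (0:ℝ)))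
    (F := fun ζ (t : ℝ) => Ψ (ζ + t * e)) (F' := fun ζ (t : ℝ) => deriv Ψ (ζ + t * e))
    (x₀ := z) (s := Metric.ball z (ρ/2)) (bound := fun t => B t / (ρ/4))
    (Metric.ball_mem_nhds z (by positivity)) ?_ ?_ ?_ ?_ ?_ ?_
  · obtain ⟨hint, hder⟩ := hmain
    have hFTC : ∫ t in Ioi (0:ℝ), (e * deriv Ψ (z + t * e)) = 0 - Ψ (z + (0:ℝ) * e) := by
      apply integral_Ioi_of_hasDerivAt_of_tendsto' (f := fun t : ℝ => Ψ (z + t * e))
      · intro t ht
        have h1 : HasDerivAt Ψ (deriv Ψ (z + t * e)) (z + t * e) :=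
          (hdiffAt z hz t ht).hasDerivAt
        have h2 : HasDerivAt (fun t : ℝ => z + (t : ℂ) * e) e t := by
          have := ((Complex.ofRealCLM.hasDerivAt (x := t)).mul_const e).const_add z
          simpa using this
        have h3 := HasDerivAt.scomp (𝕜 := ℝ) t h1 h2
        simpa [smul_eq_mul, Function.comp_def] using h3
      · exact (hint.const_mul e)
      · have : Tendsto (fun t : ℝ => Ψ (z + t * e)) atTop (𝓝 0) := by
          apply squeeze_zero_norm' _ hB0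
          filter_upwards [eventually_ge_atTop (0:ℝ)] with t ht
          exact hb z (Metric.mem_ball_self hr) t ht
        exact this
    have h4 : HasDerivAt (fun ζ => - e * ∫ t in Ioi (0:ℝ), Ψ (ζ + t * e))
        (-e * ∫ t in Ioi (0:ℝ), deriv Ψ (z + t * e)) z := hder.const_mul (-e)
    have h5 : -e * ∫ t in Ioi (0:ℝ), deriv Ψ (z + t * e) = Ψ z := by
      rw [integral_const_mul] at hFTC
      simp only [ofReal_zero, zero_mul, add_zero] at hFTC
      rw [neg_mul, hFTC]; ring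
    rw [h5] at h4
    exact h4
  · filter_upwards [hU.mem_nhds hz] with ζ hζ
    exact ((hcont ζ hζ).mono Ioi_subset_Ici_self).aestronglyMeasurable measurableSet_Ioi
  · have hmeas : AEStronglyMeasurable (fun t : ℝ => Ψ (z + t * e)) (volume.restrict (Ioi 0)) :=
      ((hcont z hz).mono Ioi_subset_Ici_self).aestronglyMeasurable measurableSet_Ioi
    refine Integrable.mono' hB hmeas ?_
    filter_upwards [ae_restrict_mem measurableSet_Ioi] with t ht
    exact hb z (Metric.mem_ball_self hr) t (le_of_lt ht)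
  · exact ((hcont' z hz).mono Ioi_subset_Ici_self).aestronglyMeasurable measurableSet_Ioi
  · filter_upwards [ae_restrict_mem measurableSet_Ioi] with t ht
    intro ζ hζ
    have hζd : dist ζ z < ρ/2 := hζ
    have hsub : Metric.closedBall ζ (ρ/4) ⊆ Metric.ball z r ∩ U := by
      intro w hw
      have hw' : dist w z < ρ := by
        have : dist w ζ ≤ ρ/4 := hw
        calc dist w z ≤ dist w ζ + dist ζ z := dist_triangle _ _ _
          _ < ρ := by linarith
      exact ⟨lt_of_lt_of_le hw' (min_le_left _ _), hball (lt_of_lt_of_le hw' (min_le_right _ _))⟩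
    have hρ4 : 0 < ρ/4 := by positivity
    apply norm_deriv_le_of_forall_mem_sphere_norm_le hρ4
    · apply DifferentiableOn.diffContOnCl
      rw [closure_ball _ hρ4.ne']
      intro w hw
      have hw2 : w - t * e ∈ Metric.closedBall ζ (ρ/4) := by
        simp only [Metric.mem_closedBall, dist_eq_norm] at hw ⊢
        convert hw using 2
        ring
      have hwU : w - t * e ∈ U := (hsub hw2).2
      have := hdiffAt _ hwU t (le_of_lt ht)
      simp only [sub_add_cancel] at this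
      exact this.differentiableWithinAt
    · intro w hw
      have hw2 : w - t * e ∈ Metric.closedBall ζ (ρ/4) := by
        simp only [Metric.mem_closedBall, mem_sphere_iff_norm] at hw ⊢
        rw [dist_eq_norm]
        have : w - t * e - ζ = w - (ζ + t * e) := by ring
        rw [this, hw]
      have := hb _ (hsub hw2).1 t (le_of_lt ht)
      simpa using this
  · exact hB.div_const _
  · filter_upwards [ae_restrict_mem measurableSet_Ioi] with t ht
    intro ζ hζ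
    have hζd : dist ζ z < ρ/2 := hζ
    have hζU : ζ ∈ U := hball (lt_of_lt_of_le (show dist ζ z < ρ by linarith) (min_le_right _ _))
    have h1 := (hdiffAt ζ hζU t (le_of_lt ht)).hasDerivAt
    have h2 : HasDerivAt (fun ζ : ℂ => ζ + (t:ℂ) * e) 1 ζ := (hasDerivAt_id ζ).add_const _
    have := HasDerivAt.comp ζ h1 h2
    simpa [Function.comp_def] using this


/-! ### The kernel -/

/-- `Log (z + i y) - Log z`. -/
noncomputable def LL (z : ℂ) (y : ℝ) : ℂ := Complex.log (z + y * I) - Complex.log z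

/-- The kernel of the slow solution operator. -/
noncomputable def Ker (b z : ℂ) (y : ℝ) : ℂ := Complex.exp (-(y:ℂ) + b * LL z y) / (z + y * I)^2

/-- The operator `T`: `h = T F` solves `h' + (i + b/z) h = F / z^2`. -/
noncomputable def T (b : ℂ) (F : ℂ → ℂ) (z : ℂ) : ℂ :=
  -I * ∫ y in Ioi (0:ℝ), Ker b z y * F (z + y * I)

/-- The operator `S`: `g = S F` solves `g' = T F`, `g(∞)=0`. -/
noncomputable def S (b : ℂ) (F : ℂ → ℂ) (z : ℂ) : ℂ := - ∫ t in Ioi (0:ℝ), T b F (z + t)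

/-- majorant of the kernel -/
noncomputable def maj (s t : ℝ) (y : ℝ) : ℝ := Real.exp (Real.pi * t) * (Real.exp (-y) * (1 + y)^s)

/-- The constant `K(s,t) = e^{π t} ∫ e^{-y}(1+y)^s`. -/
noncomputable def KK (s t : ℝ) : ℝ := ∫ y in Ioi (0:ℝ), maj s t y

lemma HP_add_I {x : ℝ} {z : ℂ} (hz : z ∈ HP x) (t : ℝ) : z + t * I ∈ HP x := by
  simp [mem_HP] at hz ⊢; exact hz

lemma HP_add_real {x : ℝ} {z : ℂ} (hz : z ∈ HP x) {t : ℝ} (ht : 0 ≤ t) : z + t ∈ HP x := by
  simp [mem_HP] at hz ⊢; linarith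

lemma HP_conj {x : ℝ} {z : ℂ} (hz : z ∈ HP x) : (starRingEnd ℂ) z ∈ HP x := by
  simpa [mem_HP] using hz

lemma ne_zero_of_HP {x : ℝ} (hx : 0 ≤ x) {z : ℂ} (hz : z ∈ HP x) : z ≠ 0 := by
  rintro rfl; simp [mem_HP] at hz; linarith

lemma one_le_norm_of_HP {z : ℂ} (hz : z ∈ HP 1) : 1 ≤ ‖z‖ :=
  (le_of_lt hz).trans (re_le_norm z)

lemma norm_ker_le {b z : ℂ} {y s t : ℝ} (hy : 0 ≤ y) (hz : z ∈ HP 1)
    (hb : 2 ≤ b.re) (hbs : b.re ≤ s + 2) (hbt : |b.im| ≤ t) :
    ‖Ker b z y‖ ≤ maj s t y / ‖z‖^2 := by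
  have hz0 : z ≠ 0 := ne_zero_of_HP zero_le_one hz
  have hzy0 : z + y * I ≠ 0 := ne_zero_of_HP zero_le_one (HP_add_I hz y)
  have hnz : 0 < ‖z‖ := norm_pos_iff.2 hz0
  have hnzy : 0 < ‖z + y * I‖ := norm_pos_iff.2 hzy0
  have h1 : ‖z + y * I‖ ≤ ‖z‖ + y := by
    calc ‖z + y * I‖ ≤ ‖z‖ + ‖(y:ℂ) * I‖ := norm_add_le _ _
      _ = ‖z‖ + y := by simp [abs_of_nonneg hy]
  have harg : |(LL z y).im| ≤ Real.pi := by
    have e1 : (LL z y).im = (z + y * I).arg - z.arg := by simp [LL, Complex.log_im]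
    rw [e1]
    have hre1 : 0 < z.re := lt_trans one_pos hz
    have hre2 : 0 < (z + y * I).re := lt_trans one_pos (HP_add_I hz y)
    have a1 : |z.arg| < Real.pi / 2 := Complex.abs_arg_lt_pi_div_two_iff.2 (Or.inl hre1)
    have a2 : |(z + y * I).arg| < Real.pi / 2 := Complex.abs_arg_lt_pi_div_two_iff.2 (Or.inl hre2)
    rw [abs_lt] at a1 a2
    rw [abs_le]; constructor <;> linarith [a1.1, a1.2, a2.1, a2.2]
  have hrel : (LL z y).re = Real.log ‖z + y * I‖ - Real.log ‖z‖ := by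
    simp [LL, Complex.log_re]
  rw [Ker, norm_div, Complex.norm_exp, norm_pow]
  have hre : (-(y:ℂ) + b * LL z y).re = -y + (b.re * (Real.log ‖z + y * I‖ - Real.log ‖z‖)
      - b.im * (LL z y).im) := by
    rw [add_re, mul_re, hrel]; simp
  rw [hre]
  have him : - (b.im * (LL z y).im) ≤ Real.pi * t := by
    calc - (b.im * (LL z y).im) ≤ |b.im * (LL z y).im| := neg_le_abs _
      _ = |b.im| * |(LL z y).im| := abs_mul _ _
      _ ≤ t * Real.pi := mul_le_mul hbt harg (abs_nonneg _) ((abs_nonneg _).trans hbt)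
      _ = Real.pi * t := mul_comm _ _
  set u := ‖z + y * I‖ / ‖z‖ with hu
  have hupos : 0 < u := div_pos hnzy hnz
  have hlogu : Real.log ‖z + y * I‖ - Real.log ‖z‖ = Real.log u := by
    rw [hu, Real.log_div hnzy.ne' hnz.ne']
  rw [hlogu]
  have hu1 : u ≤ 1 + y := by
    rw [hu, div_le_iff₀ hnz]
    have : 1 ≤ ‖z‖ := one_le_norm_of_HP hz
    nlinarith
  have hus : u ^ (b.re - 2) ≤ (1 + y) ^ s := by
    calc u ^ (b.re - 2) ≤ (1 + y) ^ (b.re - 2) :=
          Real.rpow_le_rpow hupos.le hu1 (by linarith)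
      _ ≤ (1 + y) ^ s := Real.rpow_le_rpow_of_exponent_le (by linarith) (by linarith)
  have hexp : Real.exp (-y + (b.re * Real.log u - b.im * (LL z y).im)) ≤
      Real.exp (Real.pi * t) * (Real.exp (-y) * (u ^ (b.re - 2) * u^2)) := by
    have e2 : u ^ (b.re - 2) * u^2 = Real.exp (b.re * Real.log u) := by
      rw [← Real.rpow_natCast u 2, ← Real.rpow_add hupos, Real.rpow_def_of_pos hupos]
      congr 1; push_cast; ring
    rw [e2, ← Real.exp_add, ← Real.exp_add]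
    apply Real.exp_le_exp.2; linarith
  have hu2 : u^2 / ‖z + y * I‖^2 = 1 / ‖z‖^2 := by
    rw [hu, div_pow]; field_simp
  calc Real.exp (-y + (b.re * Real.log u - b.im * (LL z y).im)) / ‖z + y * I‖^2
      ≤ (Real.exp (Real.pi * t) * (Real.exp (-y) * (u ^ (b.re - 2) * u^2))) / ‖z + y * I‖^2 := by
        gcongr
    _ = (Real.exp (Real.pi * t) * (Real.exp (-y) * u ^ (b.re - 2))) * (u^2 / ‖z + y * I‖^2) := by
        ring
    _ = (Real.exp (Real.pi * t) * (Real.exp (-y) * u ^ (b.re - 2))) / ‖z‖^2 := by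
        rw [hu2]; ring
    _ ≤ maj s t y / ‖z‖^2 := by
        unfold maj; gcongr

lemma maj_nonneg {s t y : ℝ} (hy : 0 ≤ y) : 0 ≤ maj s t y := by
  unfold maj; positivity

lemma continuousOn_maj (s t : ℝ) : ContinuousOn (maj s t) (Ici 0) := by
  unfold maj
  intro y hy
  have : (1 + y) ≠ 0 := by have : (0:ℝ) ≤ y := hy; linarith
  apply ContinuousAt.continuousWithinAt
  have h1 : ContinuousAt (fun y : ℝ => (1 + y)^s) y :=
    ContinuousAt.rpow_const (by fun_prop) (Or.inl this)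
  have h2 : ContinuousAt (fun y : ℝ => Real.exp (-y)) y := by fun_prop
  exact continuousAt_const.mul (h2.mul h1)

/-- `e^{-y}(1+y)^s` is `O(e^{-y/2})`. -/
lemma maj_le_exp (s t : ℝ) : ∃ C : ℝ, 0 ≤ C ∧ ∀ y : ℝ, 0 ≤ y → maj s t y ≤ C * Real.exp (-(1/2) * y) := by
  obtain ⟨N, hN⟩ := exists_nat_ge s
  refine ⟨Real.exp (Real.pi * t) * ((2:ℝ)^N * N.factorial * Real.exp (1/2)), by positivity, ?_⟩
  intro y hy
  have h1 : (1 + y) ^ s ≤ (1 + y)^N := by
    rw [← Real.rpow_natCast]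
    exact Real.rpow_le_rpow_of_exponent_le (by linarith) hN
  have h2 : ((1 + y)/2)^N / N.factorial ≤ Real.exp ((1 + y)/2) :=
    Real.pow_div_factorial_le_exp _ (by linarith) N
  have hf : (0:ℝ) < N.factorial := by positivity
  have h3 : (1 + y)^N ≤ (2:ℝ)^N * N.factorial * Real.exp ((1+y)/2) := by
    rw [div_le_iff₀ hf, div_pow, div_le_iff₀ (by positivity)] at h2
    nlinarith [h2]
  unfold maj
  have h4 : Real.exp ((1+y)/2) = Real.exp (1/2) * Real.exp (y/2) := by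
    rw [← Real.exp_add]; congr 1; ring
  have h5 : Real.exp (-y) * Real.exp (y/2) = Real.exp (-(1/2)*y) := by
    rw [← Real.exp_add]; congr 1; ring
  calc Real.exp (Real.pi * t) * (Real.exp (-y) * (1 + y)^s)
      ≤ Real.exp (Real.pi * t) * (Real.exp (-y) * ((2:ℝ)^N * N.factorial * Real.exp ((1+y)/2))) := by
        gcongr; exact h1.trans h3
    _ = Real.exp (Real.pi * t) * ((2:ℝ)^N * N.factorial * Real.exp (1/2)) *
          (Real.exp (-y) * Real.exp (y/2)) := by rw [h4]; ring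
    _ = _ := by rw [h5]

lemma integrableOn_maj (s t : ℝ) : IntegrableOn (maj s t) (Ioi 0) := by
  obtain ⟨C, hC, h⟩ := maj_le_exp s t
  have hint : IntegrableOn (fun y : ℝ => C * Real.exp (-(1/2) * y)) (Ioi 0) :=
    (exp_neg_integrableOn_Ioi 0 (by norm_num : (0:ℝ) < 1/2)).const_mul C
  refine Integrable.mono' hint
    (((continuousOn_maj s t).mono Ioi_subset_Ici_self).aestronglyMeasurable measurableSet_Ioi) ?_
  filter_upwards [ae_restrict_mem measurableSet_Ioi] with y hy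
  have hy' : (0:ℝ) ≤ y := le_of_lt hy
  rw [Real.norm_of_nonneg (maj_nonneg hy')]
  exact h y hy'

lemma tendsto_maj (s t : ℝ) : Tendsto (maj s t) atTop (𝓝 0) := by
  obtain ⟨C, hC, h⟩ := maj_le_exp s t
  have h0 : Tendsto (fun y : ℝ => C * Real.exp (-(1/2) * y)) atTop (𝓝 0) := by
    have : Tendsto (fun y : ℝ => Real.exp (-(1/2) * y)) atTop (𝓝 0) := by
      apply Real.tendsto_exp_atBot.comp
      exact tendsto_id.const_mul_atTop_of_neg (by norm_num)
    simpa using this.const_mul C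
  refine squeeze_zero' ?_ ?_ h0
  · filter_upwards [eventually_ge_atTop (0:ℝ)] with y hy using maj_nonneg hy
  · filter_upwards [eventually_ge_atTop (0:ℝ)] with y hy using h y hy

lemma KK_nonneg (s t : ℝ) : 0 ≤ KK s t :=
  setIntegral_nonneg measurableSet_Ioi fun _ hy => maj_nonneg (le_of_lt hy)


/-! ### The operator `T` -/

/-- `E_b(z) = exp (i z + b log z)`. -/
noncomputable def EE (b z : ℂ) : ℂ := Complex.exp (I * z + b * Complex.log z)

lemma EE_ne_zero (b z : ℂ) : EE b z ≠ 0 := Complex.exp_ne_zero _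

lemma HP_slit {x : ℝ} (hx : 0 ≤ x) {z : ℂ} (hz : z ∈ HP x) : z ∈ slitPlane :=
  Or.inl (lt_of_le_of_lt hx hz)

lemma hasDerivAt_EE {b z : ℂ} (hz : z ∈ HP 1) : HasDerivAt (EE b) ((I + b / z) * EE b z) z := by
  unfold EE
  have h1 : HasDerivAt (fun z : ℂ => I * z + b * Complex.log z) (I * 1 + b * z⁻¹) z :=
    ((hasDerivAt_id z).const_mul I).add ((Complex.hasDerivAt_log (HP_slit zero_le_one hz)).const_mul b)
  refine h1.cexp.congr_deriv ?_
  rw [div_eq_mul_inv]; ring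

lemma ker_eq {b z : ℂ} (y : ℝ) :
    Ker b z y = (EE b z)⁻¹ * (EE b (z + y * I) / (z + y * I)^2) := by
  unfold Ker EE LL
  rw [← mul_div_assoc, ← Complex.exp_neg, ← Complex.exp_add]
  congr 2
  ring_nf
  simp

/-- The function `Ψ = E F / z^2`. -/
noncomputable def Psi (b : ℂ) (F : ℂ → ℂ) (z : ℂ) : ℂ := EE b z * F z / z^2

lemma differentiableOn_Psi {b : ℂ} {x : ℝ} (hx : 1 ≤ x) {F : ℂ → ℂ}
    (hF : DifferentiableOn ℂ F (HP x)) : DifferentiableOn ℂ (Psi b F) (HP x) := by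
  intro z hz
  have hz1 : z ∈ HP 1 := lt_of_le_of_lt hx hz
  have hz0 : z ≠ 0 := ne_zero_of_HP zero_le_one hz1
  unfold Psi
  exact ((hasDerivAt_EE hz1).differentiableAt.differentiableWithinAt.mul (hF z hz)).div
    (by fun_prop) (by simpa using hz0)

lemma HP_mono {x x' : ℝ} (h : x ≤ x') : HP x' ⊆ HP x := fun _ hz => lt_of_le_of_lt h hz

lemma T_eq (b : ℂ) (F : ℂ → ℂ) (z : ℂ) :
    T b F z = (EE b z)⁻¹ * (-I * ∫ y in Ioi (0:ℝ), Psi b F (z + y * I)) := by
  unfold T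
  have : ∀ y : ℝ, Ker b z y * F (z + y * I) = (EE b z)⁻¹ * Psi b F (z + y * I) := by
    intro y; rw [ker_eq, Psi]; ring
  simp_rw [this]
  rw [integral_const_mul]; ring

/-- bound of the integrand of `T` -/
lemma norm_integrand_le {b z : ℂ} {y s t x M : ℝ} (hy : 0 ≤ y) (hx : 1 ≤ x) (hz : z ∈ HP x)
    (hb : 2 ≤ b.re) (hbs : b.re ≤ s + 2) (hbt : |b.im| ≤ t) {F : ℂ → ℂ}
    (hM : ∀ z ∈ HP x, ‖F z‖ ≤ M) :
    ‖Ker b z y * F (z + y * I)‖ ≤ maj s t y * (M / ‖z‖^2) := by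
  rw [norm_mul]
  have h1 := norm_ker_le hy (HP_mono hx hz) hb hbs hbt
  have h2 := hM _ (HP_add_I hz y)
  calc ‖Ker b z y‖ * ‖F (z + y * I)‖ ≤ (maj s t y / ‖z‖^2) * M := by
        apply mul_le_mul h1 h2 (norm_nonneg _) (div_nonneg (maj_nonneg hy) (by positivity))
    _ = _ := by ring

lemma norm_T_le {b z : ℂ} {s t x M : ℝ} (hx : 1 ≤ x) (hz : z ∈ HP x)
    (hb : 2 ≤ b.re) (hbs : b.re ≤ s + 2) (hbt : |b.im| ≤ t) {F : ℂ → ℂ}
    (hM : ∀ z ∈ HP x, ‖F z‖ ≤ M) : ‖T b F z‖ ≤ KK s t * M / ‖z‖^2 := by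
  unfold T
  rw [norm_mul, norm_neg, norm_I, one_mul]
  calc ‖∫ y in Ioi (0:ℝ), Ker b z y * F (z + y * I)‖
      ≤ ∫ y in Ioi (0:ℝ), maj s t y * (M / ‖z‖^2) := by
        apply norm_integral_le_of_norm_le ((integrableOn_maj s t).mul_const _)
        filter_upwards [ae_restrict_mem measurableSet_Ioi] with y hy
        exact norm_integrand_le (le_of_lt hy) hx hz hb hbs hbt hM
    _ = KK s t * M / ‖z‖^2 := by rw [integral_mul_const]; unfold KK; ring

lemma continuousOn_integrand {b z : ℂ} {x : ℝ} (hx : 1 ≤ x) (hz : z ∈ HP x) {F : ℂ → ℂ}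
    (hF : ContinuousOn F (HP x)) :
    ContinuousOn (fun y : ℝ => Ker b z y * F (z + y * I)) univ := by
  intro y _
  apply ContinuousAt.continuousWithinAt
  have hzy : z + y * I ∈ HP x := HP_add_I hz y
  have hzy1 : z + y * I ∈ HP 1 := HP_mono hx hzy
  have h0 : ContinuousAt (fun y : ℝ => z + (y:ℂ) * I) y := by fun_prop
  have h1 : ContinuousAt (fun y : ℝ => F (z + y * I)) y :=
    ContinuousAt.comp (f := fun y : ℝ => z + (y:ℂ) * I) (hF.continuousAt ((isOpen_HP x).mem_nhds hzy)) h0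
  have h2 : ContinuousAt (fun y : ℝ => Complex.log (z + y * I)) y :=
    ContinuousAt.comp (f := fun y : ℝ => z + (y:ℂ) * I) (continuousAt_clog (HP_slit zero_le_one hzy1)) h0
  have h3 : ContinuousAt (fun y : ℝ => Ker b z y) y := by
    unfold Ker LL
    apply ContinuousAt.div
    · apply ContinuousAt.cexp
      exact (by fun_prop : ContinuousAt (fun y : ℝ => -(y:ℂ)) y).add
        (continuousAt_const.mul (h2.sub continuousAt_const))
    · exact h0.pow 2
    · exact pow_ne_zero 2 (ne_zero_of_HP zero_le_one hzy1)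
  exact h3.mul h1

/-- **(FF1)** `T b F` is analytic and solves the first order equation. -/
theorem hasDerivAt_T {b : ℂ} {x M : ℝ} (hx : 1 ≤ x) (hb : 2 ≤ b.re) {F : ℂ → ℂ}
    (hF : DifferentiableOn ℂ F (HP x)) (hM : ∀ z ∈ HP x, ‖F z‖ ≤ M) {z : ℂ} (hz : z ∈ HP x) :
    HasDerivAt (T b F) (F z / z^2 - (I + b / z) * T b F z) z := by
  have hz1 : z ∈ HP 1 := HP_mono hx hz
  have hz0 : z ≠ 0 := ne_zero_of_HP zero_le_one hz1
  have hM0 : 0 ≤ M := (norm_nonneg _).trans (hM z hz)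
  -- a ball on which `EE b` is bounded
  have hcE : ContinuousAt (EE b) z := (hasDerivAt_EE hz1).continuousAt
  have hev : ∀ᶠ ζ in 𝓝 z, ‖EE b ζ‖ < ‖EE b z‖ + 1 ∧ ζ ∈ HP x :=
    (hcE.norm.eventually (gt_mem_nhds (by linarith))).and ((isOpen_HP x).mem_nhds hz)
  obtain ⟨r, hr, hball⟩ := Metric.eventually_nhds_iff_ball.1 hev
  set C := ‖EE b z‖ + 1 with hC
  set s := b.re - 2
  set t := |b.im|
  have hprim : HasDerivAt (fun ζ => - I * ∫ y in Ioi (0:ℝ), Psi b F (ζ + y * I)) (Psi b F z) z := by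
    apply ray_primitive (isOpen_HP x) (fun z hz t _ => HP_add_I hz t)
      (differentiableOn_Psi hx hF) hz hr (B := fun y => maj s t y * (C * M))
      ((integrableOn_maj s t).mul_const _)
    · simpa using (tendsto_maj s t).mul_const (C * M)
    · intro ζ hζ y hy
      obtain ⟨h1, h2⟩ := hball ζ hζ
      have h3 : Psi b F (ζ + y * I) = EE b ζ * (Ker b ζ y * F (ζ + y * I)) := by
        rw [ker_eq, Psi]; field_simp [EE_ne_zero]
      have hζ1 : 1 ≤ ‖ζ‖ := one_le_norm_of_HP (HP_mono hx h2)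
      rw [h3, norm_mul]
      calc ‖EE b ζ‖ * ‖Ker b ζ y * F (ζ + y * I)‖ ≤ C * (maj s t y * (M / ‖ζ‖^2)) := by
            apply mul_le_mul h1.le (norm_integrand_le hy hx h2 hb (by simp [s]) le_rfl hM)
              (norm_nonneg _) (by positivity)
        _ ≤ C * (maj s t y * M) := by
            gcongr
            · exact maj_nonneg hy
            · apply div_le_self hM0; nlinarith
        _ = _ := by ring
  have hE := hasDerivAt_EE (b := b) hz1
  have hT : T b F = fun ζ => (EE b ζ)⁻¹ * (-I * ∫ y in Ioi (0:ℝ), Psi b F (ζ + y * I)) := by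
    funext ζ; exact T_eq b F ζ
  have h := (hE.inv (EE_ne_zero b z)).mul hprim
  rw [hT]
  refine h.congr_deriv ?_
  have hEz := EE_ne_zero b z
  rw [Psi, Pi.inv_apply]
  field_simp
  ring


lemma differentiableOn_T {b : ℂ} {x M : ℝ} (hx : 1 ≤ x) (hb : 2 ≤ b.re) {F : ℂ → ℂ}
    (hF : DifferentiableOn ℂ F (HP x)) (hM : ∀ z ∈ HP x, ‖F z‖ ≤ M) :
    DifferentiableOn ℂ (T b F) (HP x) := fun _ hz =>
  (hasDerivAt_T hx hb hF hM hz).differentiableAt.differentiableWithinAt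

/-! ### The operator `S` -/

lemma integral_inv_sq {x : ℝ} (hx : 0 < x) :
    IntegrableOn (fun t : ℝ => 1 / (x + t)^2) (Ioi 0) ∧ ∫ t in Ioi (0:ℝ), 1 / (x + t)^2 = 1 / x := by
  have hd : ∀ t ∈ Ici (0:ℝ), HasDerivAt (fun t : ℝ => -(x + t)⁻¹) (1 / (x + t)^2) t := by
    intro t ht
    have h0 : x + t ≠ 0 := by have : (0:ℝ) ≤ t := ht; positivity
    have h1 : HasDerivAt (fun t : ℝ => x + t) 1 t := (hasDerivAt_id t).const_add x
    refine (h1.inv h0).neg.congr_deriv ?_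
    ring
  have hlim : Tendsto (fun t : ℝ => -(x + t)⁻¹) atTop (𝓝 0) := by
    have : Tendsto (fun t : ℝ => x + t) atTop atTop := tendsto_atTop_add_const_left _ _ tendsto_id
    simpa using (tendsto_inv_atTop_zero.comp this).neg
  have hint : IntegrableOn (fun t : ℝ => 1 / (x + t)^2) (Ioi 0) :=
    integrableOn_Ioi_deriv_of_nonneg' hd (fun t _ => by positivity) hlim
  refine ⟨hint, ?_⟩
  rw [integral_Ioi_of_hasDerivAt_of_tendsto' hd hint hlim]
  simp

lemma tendsto_inv_sq (x : ℝ) : Tendsto (fun t : ℝ => 1 / (x + t)^2) atTop (𝓝 0) := by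
  have h1 : Tendsto (fun t : ℝ => x + t) atTop atTop := tendsto_atTop_add_const_left _ _ tendsto_id
  have h2 := (tendsto_inv_atTop_zero.comp h1).pow 2
  simpa [Function.comp_def, inv_pow] using h2

lemma sq_le_norm_sq {z : ℂ} {x t : ℝ} (hx : 0 ≤ x) (hz : x ≤ z.re) (ht : 0 ≤ t) :
    (x + t)^2 ≤ ‖z + t‖^2 := by
  have h1 : x + t ≤ ‖z + t‖ := by
    calc x + t ≤ (z + t).re := by simp; linarith
      _ ≤ ‖z + t‖ := re_le_norm _
  have h0 : 0 ≤ x + t := by linarith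
  nlinarith

lemma norm_T_shift_le {b z : ℂ} {s t x M τ : ℝ} (hx : 1 ≤ x) (hz : z ∈ HP x)
    (hb : 2 ≤ b.re) (hbs : b.re ≤ s + 2) (hbt : |b.im| ≤ t) {F : ℂ → ℂ}
    (hM : ∀ z ∈ HP x, ‖F z‖ ≤ M) (hτ : 0 ≤ τ) {x' : ℝ} (hx' : 0 < x') (hxz : x' ≤ z.re) :
    ‖T b F (z + τ)‖ ≤ (KK s t * M) * (1 / (x' + τ)^2) := by
  have hM0 : 0 ≤ M := (norm_nonneg _).trans (hM z hz)
  have h1 := norm_T_le hx (HP_add_real hz hτ) hb hbs hbt hM
  refine h1.trans ?_
  rw [div_eq_mul_one_div]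
  have h2 := sq_le_norm_sq hx'.le hxz hτ
  have h3 : 0 < (x' + τ)^2 := by positivity
  gcongr
  exact mul_nonneg (KK_nonneg s t) hM0

lemma norm_S_le {b z : ℂ} {s t x M : ℝ} (hx : 1 ≤ x) (hz : z ∈ HP x)
    (hb : 2 ≤ b.re) (hbs : b.re ≤ s + 2) (hbt : |b.im| ≤ t) {F : ℂ → ℂ}
    (hM : ∀ z ∈ HP x, ‖F z‖ ≤ M) : ‖S b F z‖ ≤ KK s t * M / z.re := by
  have hzre : 0 < z.re := by have : x < z.re := hz; linarith
  obtain ⟨hi, hv⟩ := integral_inv_sq hzre
  unfold S
  rw [norm_neg]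
  calc ‖∫ τ in Ioi (0:ℝ), T b F (z + τ)‖
      ≤ ∫ τ in Ioi (0:ℝ), (KK s t * M) * (1 / (z.re + τ)^2) := by
        apply norm_integral_le_of_norm_le (hi.const_mul _)
        filter_upwards [ae_restrict_mem measurableSet_Ioi] with τ hτ
        exact norm_T_shift_le hx hz hb hbs hbt hM (le_of_lt hτ) hzre le_rfl
    _ = KK s t * M / z.re := by rw [integral_const_mul, hv]; ring

/-- **(FF1)** `S b F` is analytic and `(S b F)' = T b F`. -/
theorem hasDerivAt_S {b : ℂ} {x M : ℝ} (hx : 1 ≤ x) (hb : 2 ≤ b.re) {F : ℂ → ℂ}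
    (hF : DifferentiableOn ℂ F (HP x)) (hM : ∀ z ∈ HP x, ‖F z‖ ≤ M) {z : ℂ} (hz : z ∈ HP x) :
    HasDerivAt (S b F) (T b F z) z := by
  have hx0 : 0 < x := by linarith
  obtain ⟨r, hr, hball⟩ := Metric.isOpen_iff.1 (isOpen_HP x) z hz
  obtain ⟨hi, hv⟩ := integral_inv_sq hx0
  have h := ray_primitive (isOpen_HP x) (e := 1)
      (fun z hz t ht => by simpa using HP_add_real hz ht)
      (differentiableOn_T hx hb hF hM) hz hr
      (B := fun τ => (KK (b.re - 2) |b.im| * M) * (1 / (x + τ)^2)) (hi.const_mul _)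
      (by simpa using (tendsto_inv_sq x).const_mul (KK (b.re - 2) |b.im| * M))
      (fun ζ hζ τ hτ => by
        have := norm_T_shift_le (τ := τ) hx (hball hζ) hb (s := b.re - 2) (by simp) le_rfl hM hτ hx0
          (le_of_lt (hball hζ))
        simpa using this)
  have e1 : S b F = fun ζ => -1 * ∫ t in Ioi (0:ℝ), T b F (ζ + t * 1) := by
    funext ζ; simp [S]
  rw [e1]; exact h

lemma differentiableOn_S {b : ℂ} {x M : ℝ} (hx : 1 ≤ x) (hb : 2 ≤ b.re) {F : ℂ → ℂ}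
    (hF : DifferentiableOn ℂ F (HP x)) (hM : ∀ z ∈ HP x, ‖F z‖ ≤ M) :
    DifferentiableOn ℂ (S b F) (HP x) := fun _ hz =>
  (hasDerivAt_S hx hb hF hM hz).differentiableAt.differentiableWithinAt

end Vale.Agent.P139.H460
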