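import Vale.Agent.P139.H460.FF1

/-!
# P139 / H460 / FF2 : joint continuity of the slow solution operator in parameters
-/

open MeasureTheory Set Filter Topology Complex

namespace Vale.Agent.P139.H460

variable {X : Type*} [TopologicalSpace X] [FirstCountableTopology X]

omit [FirstCountableTopology X] in
lemma continuousOn_ker_param {A : Set X} {b : X → ℂ} (hb : ContinuousOn b A) {x : ℝ} (hx : 1 ≤ x)
    (y : ℝ) : ContinuousOn (fun q : X × ℂ => Ker (b q.1) q.2 y) (A ×ˢ HP x) := by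
  have h1 : ContinuousOn (fun q : X × ℂ => b q.1) (A ×ˢ HP x) :=
    hb.comp continuousOn_fst (fun q hq => hq.1)
  have h2 : ContinuousOn (fun q : X × ℂ => Complex.log (q.2 + y * I)) (A ×ˢ HP x) := by
    apply ContinuousOn.clog (by fun_prop)
    intro q hq
    exact HP_slit (zero_le_one.trans hx) (HP_add_I hq.2 y)
  have h3 : ContinuousOn (fun q : X × ℂ => Complex.log q.2) (A ×ˢ HP x) := by
    apply ContinuousOn.clog (by fun_prop)
    intro q hq
    exact HP_slit (zero_le_one.trans hx) hq.2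
  unfold Ker LL
  apply ContinuousOn.div
  · apply ContinuousOn.cexp
    exact continuousOn_const.add (h1.mul (h2.sub h3))
  · fun_prop
  · intro q hq
    exact pow_ne_zero 2 (ne_zero_of_HP (zero_le_one.trans hx) (HP_add_I hq.2 y))

/-- joint continuity of `T`. -/
theorem continuousOn_T_param {A : Set X} {b : X → ℂ} (hb : ContinuousOn b A) {x s t M : ℝ}
    (hx : 1 ≤ x) (hb2 : ∀ p ∈ A, 2 ≤ (b p).re) (hbs : ∀ p ∈ A, (b p).re ≤ s + 2)
    (hbt : ∀ p ∈ A, |(b p).im| ≤ t) {F : X → ℂ → ℂ}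
    (hF : ContinuousOn (fun q : X × ℂ => F q.1 q.2) (A ×ˢ HP x))
    (hM : ∀ p ∈ A, ∀ z ∈ HP x, ‖F p z‖ ≤ M) :
    ContinuousOn (fun q : X × ℂ => T (b q.1) (F q.1) q.2) (A ×ˢ HP x) := by
  have hFz : ∀ p ∈ A, ContinuousOn (F p) (HP x) := by
    intro p hp
    exact hF.comp (f := fun z : ℂ => (p, z)) (by fun_prop) (fun z hz => ⟨hp, hz⟩)
  unfold T
  apply ContinuousOn.mul continuousOn_const
  apply continuousOn_of_dominated (bound := fun y => maj s t y * M)
  · intro q hq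
    exact ((continuousOn_integrand hx hq.2 (hFz _ hq.1)).mono (subset_univ _)).aestronglyMeasurable
      measurableSet_Ioi
  · intro q hq
    filter_upwards [ae_restrict_mem measurableSet_Ioi] with y hy
    have hy' : (0:ℝ) ≤ y := le_of_lt hy
    have h := norm_integrand_le hy' hx hq.2 (hb2 _ hq.1) (hbs _ hq.1) (hbt _ hq.1) (hM _ hq.1)
    refine h.trans ?_
    have hM0 : 0 ≤ M := (norm_nonneg _).trans (hM _ hq.1 _ hq.2)
    have : 1 ≤ ‖q.2‖ := one_le_norm_of_HP (HP_mono hx hq.2)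
    have h2 : M / ‖q.2‖^2 ≤ M := div_le_self hM0 (by nlinarith)
    exact mul_le_mul_of_nonneg_left h2 (maj_nonneg hy')
  · exact (integrableOn_maj s t).mul_const M
  · filter_upwards with y
    apply (continuousOn_ker_param hb hx y).mul
    exact hF.comp (f := fun q : X × ℂ => (q.1, q.2 + y * I)) (by fun_prop)
      (fun q hq => ⟨hq.1, HP_add_I hq.2 y⟩)

/-- joint continuity of `S`. -/
theorem continuousOn_S_param {A : Set X} {b : X → ℂ} (hb : ContinuousOn b A) {x s t M : ℝ}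
    (hx : 1 ≤ x) (hb2 : ∀ p ∈ A, 2 ≤ (b p).re) (hbs : ∀ p ∈ A, (b p).re ≤ s + 2)
    (hbt : ∀ p ∈ A, |(b p).im| ≤ t) {F : X → ℂ → ℂ}
    (hF : ContinuousOn (fun q : X × ℂ => F q.1 q.2) (A ×ˢ HP x))
    (hM : ∀ p ∈ A, ∀ z ∈ HP x, ‖F p z‖ ≤ M) :
    ContinuousOn (fun q : X × ℂ => S (b q.1) (F q.1) q.2) (A ×ˢ HP x) := by
  have hT := continuousOn_T_param hb hx hb2 hbs hbt hF hM
  have hx0 : 0 < x := by linarith
  obtain ⟨hi, -⟩ := integral_inv_sq hx0
  unfold S
  apply ContinuousOn.neg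
  apply continuousOn_of_dominated (bound := fun τ => (KK s t * M) * (1 / (x + τ)^2))
  · intro q hq
    have : ContinuousOn (fun τ : ℝ => T (b q.1) (F q.1) (q.2 + τ)) (Ici 0) :=
      hT.comp (f := fun τ : ℝ => (q.1, q.2 + (τ:ℂ))) (by fun_prop)
        (fun τ hτ => ⟨hq.1, HP_add_real hq.2 hτ⟩)
    exact (this.mono Ioi_subset_Ici_self).aestronglyMeasurable measurableSet_Ioi
  · intro q hq
    filter_upwards [ae_restrict_mem measurableSet_Ioi] with τ hτ
    exact norm_T_shift_le hx hq.2 (hb2 _ hq.1) (hbs _ hq.1) (hbt _ hq.1) (hM _ hq.1)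
      (le_of_lt hτ) hx0 (le_of_lt hq.2)
  · exact hi.const_mul _
  · filter_upwards [ae_restrict_mem measurableSet_Ioi] with τ hτ
    exact hT.comp (f := fun q : X × ℂ => (q.1, q.2 + (τ:ℂ))) (by fun_prop)
      (fun q hq => ⟨hq.1, HP_add_real hq.2 (le_of_lt hτ)⟩)

/-! ### linearity of `T` and `S` -/

lemma T_sub {b : ℂ} {x M : ℝ} (hx : 1 ≤ x) (hb : 2 ≤ b.re) {F G : ℂ → ℂ}
    (hF : ContinuousOn F (HP x)) (hG : ContinuousOn G (HP x))
    (hMF : ∀ z ∈ HP x, ‖F z‖ ≤ M) (hMG : ∀ z ∈ HP x, ‖G z‖ ≤ M) {z : ℂ} (hz : z ∈ HP x) :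
    T b (fun z => F z - G z) z = T b F z - T b G z := by
  have hint : ∀ H : ℂ → ℂ, ContinuousOn H (HP x) → (∀ z ∈ HP x, ‖H z‖ ≤ M) →
      IntegrableOn (fun y : ℝ => Ker b z y * H (z + y * I)) (Ioi 0) := by
    intro H hH hMH
    refine Integrable.mono' ((integrableOn_maj (b.re - 2) |b.im|).mul_const (M / ‖z‖^2))
      (((continuousOn_integrand hx hz hH).mono (subset_univ _)).aestronglyMeasurable
        measurableSet_Ioi) ?_
    filter_upwards [ae_restrict_mem measurableSet_Ioi] with y hy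
    exact norm_integrand_le (le_of_lt hy) hx hz hb (by simp) le_rfl hMH
  unfold T
  rw [← mul_sub, ← integral_sub (hint F hF hMF) (hint G hG hMG)]
  congr 1
  apply integral_congr_ae
  filter_upwards with y
  ring

lemma S_sub {b : ℂ} {x M : ℝ} (hx : 1 ≤ x) (hb : 2 ≤ b.re) {F G : ℂ → ℂ}
    (hF : ContinuousOn F (HP x)) (hG : ContinuousOn G (HP x))
    (hMF : ∀ z ∈ HP x, ‖F z‖ ≤ M) (hMG : ∀ z ∈ HP x, ‖G z‖ ≤ M) {z : ℂ} (hz : z ∈ HP x) :
    S b (fun z => F z - G z) z = S b F z - S b G z := by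
  have hx0 : 0 < x := by linarith
  obtain ⟨hi, -⟩ := integral_inv_sq hx0
  have hint : ∀ H : ℂ → ℂ, ContinuousOn H (HP x) → (∀ z ∈ HP x, ‖H z‖ ≤ M) →
      IntegrableOn (fun τ : ℝ => T b H (z + τ)) (Ioi 0) := by
    intro H hH hMH
    have hTc : ContinuousOn (T b H) (HP x) := by
      have h0 := continuousOn_T_param (X := Unit) (A := univ) (b := fun _ => b)
        continuousOn_const hx (fun _ _ => hb) (s := b.re - 2) (fun _ _ => by simp)
        (t := |b.im|) (fun _ _ => le_rfl) (F := fun _ => H) (M := M)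
        (hH.comp continuousOn_snd (fun q hq => hq.2)) (fun _ _ => hMH)
      exact h0.comp (f := fun z : ℂ => ((), z)) (by fun_prop) (fun z hz => ⟨mem_univ _, hz⟩)
    refine Integrable.mono' (hi.const_mul (KK (b.re - 2) |b.im| * M)) ?_ ?_
    · have : ContinuousOn (fun τ : ℝ => T b H (z + τ)) (Ici 0) :=
        hTc.comp (f := fun τ : ℝ => z + (τ:ℂ)) (by fun_prop) (fun τ hτ => HP_add_real hz hτ)
      exact (this.mono Ioi_subset_Ici_self).aestronglyMeasurable measurableSet_Ioi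
    · filter_upwards [ae_restrict_mem measurableSet_Ioi] with τ hτ
      exact norm_T_shift_le hx hz hb (by simp) le_rfl hMH (le_of_lt hτ) hx0 (le_of_lt hz)
  unfold S
  rw [sub_eq_add_neg, ← neg_add, ← sub_eq_add_neg, ← integral_sub (hint F hF hMF) (hint G hG hMG)]
  congr 1
  apply setIntegral_congr_fun measurableSet_Ioi
  intro τ hτ
  exact T_sub hx hb hF hG hMF hMG (HP_add_real hz (le_of_lt hτ))

end Vale.Agent.P139.H460
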