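import Vale.Agent.P139.H460.FF2

/-!
# P139 / H460 / FF3 : the nonlinear slow family on a half plane
-/

open MeasureTheory Set Filter Topology Complex

namespace Vale.Agent.P139.H460


/-- nonlinearity `N(g) = (η (g g*)^m - κ) g`, `g*(z) = conj (g (conj z))`. -/
noncomputable def Nl (m : ℕ) (η κ : ℂ) (g : ℂ → ℂ) (z : ℂ) : ℂ :=
  (η * (g z * (starRingEnd ℂ) (g ((starRingEnd ℂ) z))) ^ m - κ) * g z

/-- one step of the iteration. -/
noncomputable def stp (m : ℕ) (η b κ ζ z1 : ℂ) (g : ℂ → ℂ) (z : ℂ) : ℂ :=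
  ζ + (S b (Nl m η κ g) z - S b (Nl m η κ g) z1)

/-- the iteration. -/
noncomputable def itr (m : ℕ) (η b κ ζ z1 : ℂ) : ℕ → ℂ → ℂ
  | 0 => fun _ => ζ
  | k+1 => stp m η b κ ζ z1 (itr m η b κ ζ z1 k)

/-- The size parameters. -/
structure Par (m : ℕ) (η z1 : ℂ) (x s t Λ θ0 θ L : ℝ) : Prop where
  hx : 1 ≤ x
  hz1 : z1 ∈ HP x
  hΛ : 0 ≤ Λ
  hθ0 : 0 ≤ θ0
  hθ : θ0 ≤ θ
  hL : ‖η‖ * (2 * m + 1) * θ ^ (2 * m) ≤ L
  hη : ‖η‖ * θ ^ (2 * m) ≤ 1
  hball : 2 * KK s t * ((1 + Λ) * θ) / x ≤ θ - θ0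
  hcontr : 4 * KK s t * (L + Λ) / x ≤ 1

/-- Admissible values of the parameters. -/
structure Adm (s t Λ θ0 : ℝ) (b κ ζ : ℂ) : Prop where
  hb2 : 2 ≤ b.re
  hbs : b.re ≤ s + 2
  hbt : |b.im| ≤ t
  hκ : ‖κ‖ ≤ Λ
  hζ : ‖ζ‖ ≤ θ0

lemma norm_pow_sub_pow_le' {u v : ℂ} {θ : ℝ} (hu : ‖u‖ ≤ θ) (hv : ‖v‖ ≤ θ) (k : ℕ) :
    ‖u ^ (k+1) - v ^ (k+1)‖ ≤ (k + 1) * θ ^ k * ‖u - v‖ := by
  have hθ : 0 ≤ θ := (norm_nonneg _).trans hu
  induction k with
  | zero => simp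
  | succ k ih =>
    have e : u ^ (k+1+1) - v ^ (k+1+1) = u * (u ^ (k+1) - v ^ (k+1)) + (u - v) * v ^ (k+1) := by
      ring
    rw [e]
    calc ‖u * (u ^ (k+1) - v ^ (k+1)) + (u - v) * v ^ (k+1)‖
        ≤ ‖u‖ * ‖u ^ (k+1) - v ^ (k+1)‖ + ‖u - v‖ * ‖v‖ ^ (k+1) := by
          refine (norm_add_le _ _).trans ?_
          rw [norm_mul, norm_mul, norm_pow]
      _ ≤ θ * ((k + 1) * θ ^ k * ‖u - v‖) + ‖u - v‖ * θ ^ (k+1) := by gcongr
      _ = ((k + 1 : ℕ) + 1) * θ ^ (k+1) * ‖u - v‖ := by push_cast; ring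

lemma Nl_lip_aux {u v u' v' : ℂ} {θ δ : ℝ} (hu : ‖u‖ ≤ θ) (hv : ‖v‖ ≤ θ) (hu' : ‖u'‖ ≤ θ)
    (hv' : ‖v'‖ ≤ θ) (h1 : ‖u - u'‖ ≤ δ) (h2 : ‖v - v'‖ ≤ δ) (m : ℕ) :
    ‖(u * v) ^ m * u - (u' * v') ^ m * u'‖ ≤ (2 * m + 1) * θ ^ (2 * m) * δ := by
  have hθ : 0 ≤ θ := (norm_nonneg _).trans hu
  have hδ : 0 ≤ δ := (norm_nonneg _).trans h1
  have e : (u * v) ^ m * u - (u' * v') ^ m * u'
      = (u ^ (m+1) - u' ^ (m+1)) * v ^ m + u' ^ (m+1) * (v ^ m - v' ^ m) := by ring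
  rw [e]
  have hA : ‖u ^ (m+1) - u' ^ (m+1)‖ ≤ (m + 1) * θ ^ m * δ :=
    (norm_pow_sub_pow_le' hu hu' m).trans (by gcongr)
  have hB : ‖u' ^ (m+1)‖ * ‖v ^ m - v' ^ m‖ ≤ m * θ ^ (2 * m) * δ := by
    rcases m with _ | k
    · simp
    · have := norm_pow_sub_pow_le' hv hv' k
      calc ‖u' ^ (k+1+1)‖ * ‖v ^ (k+1) - v' ^ (k+1)‖ ≤ θ ^ (k+1+1) * ((k + 1) * θ ^ k * δ) := by
            rw [norm_pow]
            gcongr
            exact this.trans (by gcongr)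
        _ = ((k+1 : ℕ) : ℝ) * θ ^ (2 * (k+1)) * δ := by push_cast; ring
  calc ‖(u ^ (m+1) - u' ^ (m+1)) * v ^ m + u' ^ (m+1) * (v ^ m - v' ^ m)‖
      ≤ ‖u ^ (m+1) - u' ^ (m+1)‖ * ‖v‖ ^ m + ‖u' ^ (m+1)‖ * ‖v ^ m - v' ^ m‖ := by
        refine (norm_add_le _ _).trans ?_
        rw [norm_mul, norm_mul, norm_pow v]
    _ ≤ ((m + 1) * θ ^ m * δ) * θ ^ m + m * θ ^ (2 * m) * δ := by gcongr
    _ = _ := by ring

section basic

variable {m : ℕ} {η z1 : ℂ} {x s t Λ θ0 θ L : ℝ} {b κ ζ : ℂ}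

lemma Par.θ_nonneg (hp : Par m η z1 x s t Λ θ0 θ L) : 0 ≤ θ := hp.hθ0.trans hp.hθ

lemma Par.x_pos (hp : Par m η z1 x s t Λ θ0 θ L) : 0 < x := lt_of_lt_of_le one_pos hp.hx

lemma Par.L_nonneg (hp : Par m η z1 x s t Λ θ0 θ L) : 0 ≤ L := by
  refine le_trans ?_ hp.hL
  have := hp.θ_nonneg
  positivity

lemma norm_Nl_le (hp : Par m η z1 x s t Λ θ0 θ L) (hκ : ‖κ‖ ≤ Λ) {g : ℂ → ℂ}
    (hg : ∀ z ∈ HP x, ‖g z‖ ≤ θ) : ∀ z ∈ HP x, ‖Nl m η κ g z‖ ≤ (1 + Λ) * θ := by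
  intro z hz
  have hθ := hp.θ_nonneg
  unfold Nl
  rw [norm_mul]
  have h1 : ‖g z * (starRingEnd ℂ) (g ((starRingEnd ℂ) z))‖ ≤ θ ^ 2 := by
    rw [norm_mul, RCLike.norm_conj, sq]
    exact mul_le_mul (hg z hz) (hg _ (HP_conj hz)) (norm_nonneg _) hθ
  have h2 : ‖η * (g z * (starRingEnd ℂ) (g ((starRingEnd ℂ) z))) ^ m - κ‖ ≤ 1 + Λ := by
    calc ‖η * (g z * (starRingEnd ℂ) (g ((starRingEnd ℂ) z))) ^ m - κ‖ ≤ ‖η‖ * ‖g z * (starRingEnd ℂ) (g ((starRingEnd ℂ) z))‖ ^ m + ‖κ‖ := by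
          refine (norm_sub_le _ _).trans ?_
          rw [norm_mul, norm_pow]
      _ ≤ ‖η‖ * (θ ^ 2) ^ m + Λ := by gcongr
      _ ≤ 1 + Λ := by
          have := hp.hη
          rw [pow_mul] at this
          linarith
  exact mul_le_mul h2 (hg z hz) (norm_nonneg _) (by have := hp.hΛ; linarith)

lemma norm_Nl_sub_le (hp : Par m η z1 x s t Λ θ0 θ L) (hκ : ‖κ‖ ≤ Λ) {g g' : ℂ → ℂ}
    (hg : ∀ z ∈ HP x, ‖g z‖ ≤ θ) (hg' : ∀ z ∈ HP x, ‖g' z‖ ≤ θ) {δ : ℝ}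
    (hδ : ∀ z ∈ HP x, ‖g z - g' z‖ ≤ δ) :
    ∀ z ∈ HP x, ‖Nl m η κ g z - Nl m η κ g' z‖ ≤ (L + Λ) * δ := by
  intro z hz
  have hθ := hp.θ_nonneg
  have hδ0 : 0 ≤ δ := (norm_nonneg _).trans (hδ z hz)
  unfold Nl
  have e : (η * (g z * (starRingEnd ℂ) (g ((starRingEnd ℂ) z))) ^ m - κ) * g z - (η * (g' z * (starRingEnd ℂ) (g' ((starRingEnd ℂ) z))) ^ m - κ) * g' z
      = η * ((g z * (starRingEnd ℂ) (g ((starRingEnd ℂ) z))) ^ m * g z - (g' z * (starRingEnd ℂ) (g' ((starRingEnd ℂ) z))) ^ m * g' z)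
        - κ * (g z - g' z) := by ring
  rw [e]
  have h1 := Nl_lip_aux (u := g z) (v := (starRingEnd ℂ) (g ((starRingEnd ℂ) z))) (u' := g' z) (v' := (starRingEnd ℂ) (g' ((starRingEnd ℂ) z)))
    (hg z hz) (by rw [RCLike.norm_conj]; exact hg _ (HP_conj hz)) (hg' z hz)
    (by rw [RCLike.norm_conj]; exact hg' _ (HP_conj hz)) (hδ z hz)
    (by rw [← map_sub, RCLike.norm_conj]; exact hδ _ (HP_conj hz)) m
  calc ‖η * ((g z * (starRingEnd ℂ) (g ((starRingEnd ℂ) z))) ^ m * g z - (g' z * (starRingEnd ℂ) (g' ((starRingEnd ℂ) z))) ^ m * g' z)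
        - κ * (g z - g' z)‖
      ≤ ‖η‖ * ((2 * m + 1) * θ ^ (2 * m) * δ) + Λ * δ := by
        refine (norm_sub_le _ _).trans ?_
        rw [norm_mul, norm_mul]
        gcongr
        exacts [hp.hΛ, hδ z hz]
    _ = (‖η‖ * (2 * m + 1) * θ ^ (2 * m)) * δ + Λ * δ := by ring
    _ ≤ L * δ + Λ * δ := by gcongr; exact hp.hL
    _ = _ := by ring

lemma differentiableOn_Nl {g : ℂ → ℂ} (hg : DifferentiableOn ℂ g (HP x)) :
    DifferentiableOn ℂ (Nl m η κ g) (HP x) := by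
  have h2 : DifferentiableOn ℂ (fun z => (starRingEnd ℂ) (g ((starRingEnd ℂ) z))) (HP x) := by
    intro z hz
    have h3 : DifferentiableAt ℂ g ((starRingEnd ℂ) z) :=
      hg.differentiableAt ((isOpen_HP x).mem_nhds (HP_conj hz))
    have h4 := h3.conj_conj
    simpa [Function.comp_def] using h4.differentiableWithinAt
  unfold Nl
  exact (((hg.mul h2).pow m).const_mul η |>.sub_const κ).mul hg

lemma norm_stp_le (hp : Par m η z1 x s t Λ θ0 θ L) (ha : Adm s t Λ θ0 b κ ζ) {g : ℂ → ℂ}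
    (hg : ∀ z ∈ HP x, ‖g z‖ ≤ θ) :
    ∀ z ∈ HP x, ‖stp m η b κ ζ z1 g z‖ ≤ θ := by
  intro z hz
  have hx0 := hp.x_pos
  have hθ := hp.θ_nonneg
  have hN := norm_Nl_le (κ := κ) hp ha.hκ hg
  have hKK := KK_nonneg s t
  have hΛ := hp.hΛ
  have key : ∀ z ∈ HP x, ‖S b (Nl m η κ g) z‖ ≤ KK s t * ((1 + Λ) * θ) / x := by
    intro z hz
    refine (norm_S_le hp.hx hz ha.hb2 ha.hbs ha.hbt hN).trans ?_
    have : x < z.re := hz
    gcongr
  unfold stp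
  calc ‖ζ + (S b (Nl m η κ g) z - S b (Nl m η κ g) z1)‖
      ≤ ‖ζ‖ + (‖S b (Nl m η κ g) z‖ + ‖S b (Nl m η κ g) z1‖) :=
        (norm_add_le _ _).trans (by gcongr; exact norm_sub_le _ _)
    _ ≤ θ0 + (KK s t * ((1 + Λ) * θ) / x + KK s t * ((1 + Λ) * θ) / x) := by
        gcongr
        · exact ha.hζ
        · exact key z hz
        · exact key z1 hp.hz1
    _ = θ0 + 2 * KK s t * ((1 + Λ) * θ) / x := by ring
    _ ≤ θ := by linarith [hp.hball]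

lemma differentiableOn_stp (hp : Par m η z1 x s t Λ θ0 θ L) (ha : Adm s t Λ θ0 b κ ζ) {g : ℂ → ℂ}
    (hgd : DifferentiableOn ℂ g (HP x)) (hg : ∀ z ∈ HP x, ‖g z‖ ≤ θ) :
    DifferentiableOn ℂ (stp m η b κ ζ z1 g) (HP x) := by
  unfold stp
  exact ((differentiableOn_S hp.hx ha.hb2 (differentiableOn_Nl hgd)
    (norm_Nl_le hp ha.hκ hg)).sub_const _).const_add _

lemma stp_contr (hp : Par m η z1 x s t Λ θ0 θ L) (ha : Adm s t Λ θ0 b κ ζ) {g g' : ℂ → ℂ}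
    (hgd : DifferentiableOn ℂ g (HP x)) (hgd' : DifferentiableOn ℂ g' (HP x))
    (hg : ∀ z ∈ HP x, ‖g z‖ ≤ θ) (hg' : ∀ z ∈ HP x, ‖g' z‖ ≤ θ) {δ : ℝ}
    (hδ : ∀ z ∈ HP x, ‖g z - g' z‖ ≤ δ) :
    ∀ z ∈ HP x, ‖stp m η b κ ζ z1 g z - stp m η b κ ζ z1 g' z‖ ≤ δ / 2 := by
  intro z hz
  have hx0 := hp.x_pos
  have hδ0 : 0 ≤ δ := (norm_nonneg _).trans (hδ z hz)
  have hKK := KK_nonneg s t
  have hL := hp.L_nonneg
  have hΛ := hp.hΛ
  have hc := (differentiableOn_Nl (m := m) (η := η) (κ := κ) hgd).continuousOn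
  have hc' := (differentiableOn_Nl (m := m) (η := η) (κ := κ) hgd').continuousOn
  have hN := norm_Nl_le (κ := κ) hp ha.hκ hg
  have hN' := norm_Nl_le (κ := κ) hp ha.hκ hg'
  have key : ∀ z ∈ HP x, ‖S b (Nl m η κ g) z - S b (Nl m η κ g') z‖ ≤
      KK s t * ((L + Λ) * δ) / x := by
    intro z hz
    rw [← S_sub hp.hx ha.hb2 hc hc' hN hN' hz]
    refine (norm_S_le hp.hx hz ha.hb2 ha.hbs ha.hbt
      (norm_Nl_sub_le hp ha.hκ hg hg' hδ)).trans ?_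
    have : x < z.re := hz
    gcongr
  have e : stp m η b κ ζ z1 g z - stp m η b κ ζ z1 g' z =
      (S b (Nl m η κ g) z - S b (Nl m η κ g') z) - (S b (Nl m η κ g) z1 - S b (Nl m η κ g') z1) := by
    unfold stp; ring
  rw [e]
  calc _ ≤ KK s t * ((L + Λ) * δ) / x + KK s t * ((L + Λ) * δ) / x :=
        (norm_sub_le _ _).trans (add_le_add (key z hz) (key z1 hp.hz1))
    _ = (4 * KK s t * (L + Λ) / x) * (δ / 2) := by ring
    _ ≤ 1 * (δ / 2) := by gcongr; exact hp.hcontr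
    _ = δ / 2 := one_mul _

lemma itr_prop (hp : Par m η z1 x s t Λ θ0 θ L) (ha : Adm s t Λ θ0 b κ ζ) (k : ℕ) :
    DifferentiableOn ℂ (itr m η b κ ζ z1 k) (HP x) ∧ ∀ z ∈ HP x, ‖itr m η b κ ζ z1 k z‖ ≤ θ := by
  induction k with
  | zero => exact ⟨differentiableOn_const _, fun z _ => ha.hζ.trans hp.hθ⟩
  | succ k ih => exact ⟨differentiableOn_stp hp ha ih.1 ih.2, norm_stp_le hp ha ih.2⟩

lemma itr_diff (hp : Par m η z1 x s t Λ θ0 θ L) (ha : Adm s t Λ θ0 b κ ζ) (k : ℕ) :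
    ∀ z ∈ HP x, ‖itr m η b κ ζ z1 (k+1) z - itr m η b κ ζ z1 k z‖ ≤ 2 * θ * (1/2) ^ k := by
  induction k with
  | zero =>
    intro z hz
    have h1 := (itr_prop hp ha 1).2 z hz
    have h0 := (itr_prop hp ha 0).2 z hz
    calc _ ≤ ‖itr m η b κ ζ z1 1 z‖ + ‖itr m η b κ ζ z1 0 z‖ := norm_sub_le _ _
      _ ≤ _ := by simp; linarith
  | succ k ih =>
    intro z hz
    have h := stp_contr hp ha (itr_prop hp ha (k+1)).1 (itr_prop hp ha k).1
      (itr_prop hp ha (k+1)).2 (itr_prop hp ha k).2 ih z hz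
    calc _ ≤ 2 * θ * (1/2) ^ k / 2 := h
      _ = _ := by rw [pow_succ]; ring

/-- **The slow solution** (as a limit of the iteration). -/
noncomputable def slow (m : ℕ) (η b κ ζ z1 : ℂ) (z : ℂ) : ℂ :=
  limUnder atTop (fun k => itr m η b κ ζ z1 k z)

lemma tendsto_itr (hp : Par m η z1 x s t Λ θ0 θ L) (ha : Adm s t Λ θ0 b κ ζ) {z : ℂ}
    (hz : z ∈ HP x) :
    Tendsto (fun k => itr m η b κ ζ z1 k z) atTop (𝓝 (slow m η b κ ζ z1 z)) := by
  have hc : CauchySeq (fun k => itr m η b κ ζ z1 k z) := by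
    apply cauchySeq_of_le_geometric (1/2) (2 * θ) (by norm_num)
    intro k
    rw [dist_comm, dist_eq_norm]
    exact itr_diff hp ha k z hz
  exact hc.tendsto_limUnder

lemma norm_slow_sub_itr_le (hp : Par m η z1 x s t Λ θ0 θ L) (ha : Adm s t Λ θ0 b κ ζ) {z : ℂ}
    (hz : z ∈ HP x) (k : ℕ) :
    ‖slow m η b κ ζ z1 z - itr m η b κ ζ z1 k z‖ ≤ 4 * θ * (1/2) ^ k := by
  have h := dist_le_of_le_geometric_of_tendsto (1/2) (2 * θ) (by norm_num)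
    (f := fun k => itr m η b κ ζ z1 k z)
    (fun k => by rw [dist_comm, dist_eq_norm]; exact itr_diff hp ha k z hz)
    (tendsto_itr hp ha hz) k
  rw [dist_comm, dist_eq_norm] at h
  calc _ ≤ 2 * θ * (1/2) ^ k / (1 - 1/2) := h
    _ = _ := by ring

lemma norm_slow_le (hp : Par m η z1 x s t Λ θ0 θ L) (ha : Adm s t Λ θ0 b κ ζ) :
    ∀ z ∈ HP x, ‖slow m η b κ ζ z1 z‖ ≤ θ := fun z hz =>
  le_of_tendsto (tendsto_itr hp ha hz).norm
    (Eventually.of_forall fun k => (itr_prop hp ha k).2 z hz)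

lemma tendstoUniformlyOn_itr (hp : Par m η z1 x s t Λ θ0 θ L) (ha : Adm s t Λ θ0 b κ ζ) :
    TendstoUniformlyOn (fun k => itr m η b κ ζ z1 k) (slow m η b κ ζ z1) atTop (HP x) := by
  rw [Metric.tendstoUniformlyOn_iff]
  intro ε hε
  have h0 : Tendsto (fun k : ℕ => 4 * θ * (1/2:ℝ) ^ k) atTop (𝓝 0) := by
    simpa using (tendsto_pow_atTop_nhds_zero_of_lt_one (by norm_num : (0:ℝ) ≤ 1/2)
      (by norm_num)).const_mul (4 * θ)
  filter_upwards [h0.eventually (gt_mem_nhds hε)] with k hk z hz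
  rw [dist_eq_norm]
  exact lt_of_le_of_lt (norm_slow_sub_itr_le hp ha hz k) hk

lemma differentiableOn_slow (hp : Par m η z1 x s t Λ θ0 θ L) (ha : Adm s t Λ θ0 b κ ζ) :
    DifferentiableOn ℂ (slow m η b κ ζ z1) (HP x) :=
  (tendstoUniformlyOn_itr hp ha).tendstoLocallyUniformlyOn.differentiableOn
    (Eventually.of_forall fun k => (itr_prop hp ha k).1) (isOpen_HP x)

/-- The fixed point equation. -/
theorem slow_eq (hp : Par m η z1 x s t Λ θ0 θ L) (ha : Adm s t Λ θ0 b κ ζ) {z : ℂ}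
    (hz : z ∈ HP x) :
    slow m η b κ ζ z1 z = stp m η b κ ζ z1 (slow m η b κ ζ z1) z := by
  have h1 : Tendsto (fun k => itr m η b κ ζ z1 (k+1) z) atTop (𝓝 (slow m η b κ ζ z1 z)) :=
    (tendsto_add_atTop_iff_nat 1).2 (tendsto_itr hp ha hz)
  have h2 : Tendsto (fun k => itr m η b κ ζ z1 (k+1) z) atTop
      (𝓝 (stp m η b κ ζ z1 (slow m η b κ ζ z1) z)) := by
    rw [tendsto_iff_norm_sub_tendsto_zero]
    have h0 : Tendsto (fun k : ℕ => 4 * θ * (1/2:ℝ) ^ k / 2) atTop (𝓝 0) := by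
      simpa using ((tendsto_pow_atTop_nhds_zero_of_lt_one (by norm_num : (0:ℝ) ≤ 1/2)
        (by norm_num)).const_mul (4 * θ)).div_const 2
    refine squeeze_zero (fun _ => norm_nonneg _) (fun k => ?_) h0
    exact stp_contr hp ha (itr_prop hp ha k).1 (differentiableOn_slow hp ha) (itr_prop hp ha k).2
      (norm_slow_le hp ha) (δ := 4 * θ * (1/2) ^ k)
      (fun z hz => by rw [norm_sub_rev]; exact norm_slow_sub_itr_le hp ha hz k) z hz
  exact tendsto_nhds_unique h1 h2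

/-- Value at the base point. -/
theorem slow_base (hp : Par m η z1 x s t Λ θ0 θ L) (ha : Adm s t Λ θ0 b κ ζ) :
    slow m η b κ ζ z1 z1 = ζ := by
  rw [slow_eq hp ha hp.hz1]; simp [stp]

/-- first derivative of the slow solution. -/
noncomputable def slow1 (m : ℕ) (η b κ ζ z1 : ℂ) (z : ℂ) : ℂ :=
  T b (Nl m η κ (slow m η b κ ζ z1)) z

theorem hasDerivAt_slow (hp : Par m η z1 x s t Λ θ0 θ L) (ha : Adm s t Λ θ0 b κ ζ) {z : ℂ}
    (hz : z ∈ HP x) : HasDerivAt (slow m η b κ ζ z1) (slow1 m η b κ ζ z1 z) z := by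
  have h := hasDerivAt_S hp.hx ha.hb2
    (differentiableOn_Nl (m := m) (η := η) (κ := κ) (differentiableOn_slow hp ha))
    (norm_Nl_le hp ha.hκ (norm_slow_le hp ha)) hz
  have h2 : HasDerivAt (stp m η b κ ζ z1 (slow m η b κ ζ z1)) (slow1 m η b κ ζ z1 z) z := by
    unfold stp slow1
    exact (h.sub_const _).const_add _
  refine h2.congr_of_eventuallyEq ?_
  filter_upwards [(isOpen_HP x).mem_nhds hz] with w hw using slow_eq hp ha hw

theorem hasDerivAt_slow1 (hp : Par m η z1 x s t Λ θ0 θ L) (ha : Adm s t Λ θ0 b κ ζ) {z : ℂ}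
    (hz : z ∈ HP x) : HasDerivAt (slow1 m η b κ ζ z1)
      (Nl m η κ (slow m η b κ ζ z1) z / z^2 - (I + b / z) * slow1 m η b κ ζ z1 z) z :=
  hasDerivAt_T hp.hx ha.hb2
    (differentiableOn_Nl (m := m) (η := η) (κ := κ) (differentiableOn_slow hp ha))
    (norm_Nl_le hp ha.hκ (norm_slow_le hp ha)) hz

theorem norm_slow1_le (hp : Par m η z1 x s t Λ θ0 θ L) (ha : Adm s t Λ θ0 b κ ζ) {z : ℂ}
    (hz : z ∈ HP x) : ‖slow1 m η b κ ζ z1 z‖ ≤ KK s t * ((1 + Λ) * θ) / ‖z‖^2 :=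
  norm_T_le hp.hx hz ha.hb2 ha.hbs ha.hbt (norm_Nl_le hp ha.hκ (norm_slow_le hp ha))

/-- uniqueness of the fixed point. -/
theorem slow_unique (hp : Par m η z1 x s t Λ θ0 θ L) (ha : Adm s t Λ θ0 b κ ζ) {g : ℂ → ℂ}
    (hgd : DifferentiableOn ℂ g (HP x)) (hg : ∀ z ∈ HP x, ‖g z‖ ≤ θ)
    (hfix : ∀ z ∈ HP x, g z = stp m η b κ ζ z1 g z) :
    ∀ z ∈ HP x, g z = slow m η b κ ζ z1 z := by
  have key : ∀ k : ℕ, ∀ z ∈ HP x, ‖g z - slow m η b κ ζ z1 z‖ ≤ 2 * θ * (1/2) ^ k := by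
    intro k
    induction k with
    | zero =>
      intro z hz
      calc _ ≤ ‖g z‖ + ‖slow m η b κ ζ z1 z‖ := norm_sub_le _ _
        _ ≤ θ + θ := add_le_add (hg z hz) (norm_slow_le hp ha z hz)
        _ = _ := by simp; ring
    | succ k ih =>
      intro z hz
      have := stp_contr hp ha hgd (differentiableOn_slow hp ha) hg (norm_slow_le hp ha) ih z hz
      rw [← hfix z hz, ← slow_eq hp ha hz] at this
      calc _ ≤ 2 * θ * (1/2) ^ k / 2 := this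
        _ = _ := by rw [pow_succ]; ring
  intro z hz
  have h0 : Tendsto (fun k : ℕ => 2 * θ * (1/2:ℝ) ^ k) atTop (𝓝 0) := by
    simpa using (tendsto_pow_atTop_nhds_zero_of_lt_one (by norm_num : (0:ℝ) ≤ 1/2)
      (by norm_num)).const_mul (2 * θ)
  have h1 : ‖g z - slow m η b κ ζ z1 z‖ ≤ 0 := ge_of_tendsto' h0 (fun k => key k z hz)
  exact sub_eq_zero.1 (norm_le_zero_iff.1 h1)

end basic

section param

variable {X : Type*} [TopologicalSpace X] [FirstCountableTopology X]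
variable {m : ℕ} {η z1 : ℂ} {x s t Λ θ0 θ L : ℝ} {b κ ζ : X → ℂ} {A : Set X}

omit [FirstCountableTopology X] in
lemma continuousOn_Nl_param (hκ : ContinuousOn κ A) {g : X → ℂ → ℂ}
    (hg : ContinuousOn (fun q : X × ℂ => g q.1 q.2) (A ×ˢ HP x)) :
    ContinuousOn (fun q : X × ℂ => Nl m η (κ q.1) (g q.1) q.2) (A ×ˢ HP x) := by
  have h1 : ContinuousOn (fun q : X × ℂ => κ q.1) (A ×ˢ HP x) :=
    hκ.comp continuousOn_fst (fun q hq => hq.1)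
  have h2 : ContinuousOn (fun q : X × ℂ => g q.1 ((starRingEnd ℂ) q.2)) (A ×ˢ HP x) :=
    hg.comp (f := fun q : X × ℂ => (q.1, (starRingEnd ℂ) q.2))
      (continuousOn_fst.prodMk (continuous_conj.comp_continuousOn continuousOn_snd))
      (fun q hq => ⟨hq.1, HP_conj hq.2⟩)
  have h3 : ContinuousOn (fun q : X × ℂ => (starRingEnd ℂ) (g q.1 ((starRingEnd ℂ) q.2))) (A ×ˢ HP x) :=
    continuous_conj.comp_continuousOn h2
  unfold Nl
  exact ((continuousOn_const.mul ((hg.mul h3).pow m)).sub h1).mul hg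

lemma continuousOn_itr_param (hp : Par m η z1 x s t Λ θ0 θ L)
    (ha : ∀ p ∈ A, Adm s t Λ θ0 (b p) (κ p) (ζ p)) (hb : ContinuousOn b A) (hκ : ContinuousOn κ A)
    (hζ : ContinuousOn ζ A) (k : ℕ) :
    ContinuousOn (fun q : X × ℂ => itr m η (b q.1) (κ q.1) (ζ q.1) z1 k q.2) (A ×ˢ HP x) := by
  have hζ' : ContinuousOn (fun q : X × ℂ => ζ q.1) (A ×ˢ HP x) :=
    hζ.comp continuousOn_fst (fun q hq => hq.1)
  induction k with
  | zero => exact hζ'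
  | succ k ih =>
    have hN := continuousOn_Nl_param (m := m) (η := η) (x := x) hκ
      (g := fun p z => itr m η (b p) (κ p) (ζ p) z1 k z) ih
    have hS := continuousOn_S_param hb hp.hx (fun p h => (ha p h).hb2) (fun p h => (ha p h).hbs)
      (fun p h => (ha p h).hbt) (F := fun p => Nl m η (κ p) (itr m η (b p) (κ p) (ζ p) z1 k)) hN
      (M := (1 + Λ) * θ)
      (fun p h => norm_Nl_le hp (ha p h).hκ (itr_prop hp (ha p h) k).2)
    have hS1 : ContinuousOn (fun q : X × ℂ =>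
        S (b q.1) (Nl m η (κ q.1) (itr m η (b q.1) (κ q.1) (ζ q.1) z1 k)) z1) (A ×ˢ HP x) :=
      hS.comp (f := fun q : X × ℂ => (q.1, z1)) (by fun_prop) (fun q hq => ⟨hq.1, hp.hz1⟩)
    exact hζ'.add (hS.sub hS1)

/-- joint continuity of the slow family. -/
theorem continuousOn_slow_param (hp : Par m η z1 x s t Λ θ0 θ L)
    (ha : ∀ p ∈ A, Adm s t Λ θ0 (b p) (κ p) (ζ p)) (hb : ContinuousOn b A) (hκ : ContinuousOn κ A)
    (hζ : ContinuousOn ζ A) :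
    ContinuousOn (fun q : X × ℂ => slow m η (b q.1) (κ q.1) (ζ q.1) z1 q.2) (A ×ˢ HP x) := by
  have h : TendstoUniformlyOn
      (fun k (q : X × ℂ) => itr m η (b q.1) (κ q.1) (ζ q.1) z1 k q.2)
      (fun q : X × ℂ => slow m η (b q.1) (κ q.1) (ζ q.1) z1 q.2) atTop (A ×ˢ HP x) := by
    rw [Metric.tendstoUniformlyOn_iff]
    intro ε hε
    have h0 : Tendsto (fun k : ℕ => 4 * θ * (1/2:ℝ) ^ k) atTop (𝓝 0) := by
      simpa using (tendsto_pow_atTop_nhds_zero_of_lt_one (by norm_num : (0:ℝ) ≤ 1/2)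
        (by norm_num)).const_mul (4 * θ)
    filter_upwards [h0.eventually (gt_mem_nhds hε)] with k hk q hq
    rw [dist_eq_norm]
    exact lt_of_le_of_lt (norm_slow_sub_itr_le hp (ha _ hq.1) hq.2 k) hk
  exact h.continuousOn (Frequently.of_forall fun k => continuousOn_itr_param hp ha hb hκ hζ k)

theorem continuousOn_slow1_param (hp : Par m η z1 x s t Λ θ0 θ L)
    (ha : ∀ p ∈ A, Adm s t Λ θ0 (b p) (κ p) (ζ p)) (hb : ContinuousOn b A) (hκ : ContinuousOn κ A)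
    (hζ : ContinuousOn ζ A) :
    ContinuousOn (fun q : X × ℂ => slow1 m η (b q.1) (κ q.1) (ζ q.1) z1 q.2) (A ×ˢ HP x) := by
  have hN := continuousOn_Nl_param (m := m) (η := η) (x := x) hκ
    (g := fun p z => slow m η (b p) (κ p) (ζ p) z1 z) (continuousOn_slow_param hp ha hb hκ hζ)
  exact continuousOn_T_param hb hp.hx (fun p h => (ha p h).hb2) (fun p h => (ha p h).hbs)
    (fun p h => (ha p h).hbt) (F := fun p => Nl m η (κ p) (slow m η (b p) (κ p) (ζ p) z1)) hN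
    (M := (1 + Λ) * θ) (fun p h => norm_Nl_le hp (ha p h).hκ (norm_slow_le hp (ha p h)))

end param

/-! ### comparison of the nonlinear with the linear slow solution -/

section compare

variable {m : ℕ} {η z1 : ℂ} {x s t Λ θ0 θ L : ℝ} {b κ ζ : ℂ}

lemma Nl_zero (m : ℕ) (κ : ℂ) (g : ℂ → ℂ) (z : ℂ) : Nl m 0 κ g z = - κ * g z := by
  unfold Nl; ring

lemma norm_Nl_sub_zero_le (hp : Par m η z1 x s t Λ θ0 θ L) {g : ℂ → ℂ}
    (hg : ∀ z ∈ HP x, ‖g z‖ ≤ θ) :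
    ∀ z ∈ HP x, ‖Nl m η κ g z - Nl m 0 κ g z‖ ≤ ‖η‖ * θ ^ (2 * m + 1) := by
  intro z hz
  have hθ := hp.θ_nonneg
  have e : Nl m η κ g z - Nl m 0 κ g z = η * ((g z * (starRingEnd ℂ) (g ((starRingEnd ℂ) z))) ^ m * g z) := by
    rw [Nl_zero]; unfold Nl; ring
  rw [e, norm_mul, norm_mul, norm_pow]
  have h1 : ‖g z * (starRingEnd ℂ) (g ((starRingEnd ℂ) z))‖ ≤ θ ^ 2 := by
    rw [norm_mul, RCLike.norm_conj, sq]
    exact mul_le_mul (hg z hz) (hg _ (HP_conj hz)) (norm_nonneg _) hθ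
  calc ‖η‖ * (‖g z * (starRingEnd ℂ) (g ((starRingEnd ℂ) z))‖ ^ m * ‖g z‖) ≤ ‖η‖ * ((θ ^ 2) ^ m * θ) := by
        gcongr; exact hg z hz
    _ = _ := by rw [← pow_mul, ← pow_succ]

/-- The nonlinear slow solution is exponentially close to the linear one. -/
theorem norm_slow_sub_lin_le (hp : Par m η z1 x s t Λ θ0 θ L) (hp0 : Par m 0 z1 x s t Λ θ0 θ L)
    (ha : Adm s t Λ θ0 b κ ζ) :
    ∀ z ∈ HP x, ‖slow m η b κ ζ z1 z - slow m 0 b κ ζ z1 z‖ ≤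
      4 * (KK s t * (‖η‖ * θ ^ (2 * m + 1)) / x) := by
  have hx0 := hp.x_pos
  have hθ := hp.θ_nonneg
  set ε := KK s t * (‖η‖ * θ ^ (2 * m + 1)) / x with hε
  have hε0 : 0 ≤ ε := by have := KK_nonneg s t; positivity
  have hg := norm_slow_le hp ha
  have hgd := differentiableOn_slow hp ha
  have hg0 := norm_slow_le hp0 ha
  have hgd0 := differentiableOn_slow hp0 ha
  -- the difference of the two steps at the same function
  have hstep : ∀ z ∈ HP x, ‖stp m η b κ ζ z1 (slow m η b κ ζ z1) z -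
      stp m 0 b κ ζ z1 (slow m η b κ ζ z1) z‖ ≤ 2 * ε := by
    intro z hz
    have hN1 := norm_Nl_le (κ := κ) hp ha.hκ hg
    have hN2 := norm_Nl_le (κ := κ) hp0 ha.hκ hg
    have hc1 := (differentiableOn_Nl (m := m) (η := η) (κ := κ) hgd).continuousOn
    have hc2 := (differentiableOn_Nl (m := m) (η := 0) (κ := κ) hgd).continuousOn
    have key : ∀ z ∈ HP x, ‖S b (Nl m η κ (slow m η b κ ζ z1)) z -
        S b (Nl m 0 κ (slow m η b κ ζ z1)) z‖ ≤ ε := by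
      intro z hz
      rw [← S_sub hp.hx ha.hb2 hc1 hc2 hN1 hN2 hz]
      refine (norm_S_le hp.hx hz ha.hb2 ha.hbs ha.hbt (norm_Nl_sub_zero_le hp hg)).trans ?_
      have : x < z.re := hz
      have := KK_nonneg s t
      rw [hε]
      gcongr
    have e : stp m η b κ ζ z1 (slow m η b κ ζ z1) z - stp m 0 b κ ζ z1 (slow m η b κ ζ z1) z =
        (S b (Nl m η κ (slow m η b κ ζ z1)) z - S b (Nl m 0 κ (slow m η b κ ζ z1)) z) -
        (S b (Nl m η κ (slow m η b κ ζ z1)) z1 - S b (Nl m 0 κ (slow m η b κ ζ z1)) z1) := by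
      unfold stp; ring
    rw [e]
    calc _ ≤ ε + ε := (norm_sub_le _ _).trans (add_le_add (key z hz) (key z1 hp.hz1))
      _ = 2 * ε := by ring
  -- bootstrap
  have key : ∀ k : ℕ, ∀ z ∈ HP x, ‖slow m η b κ ζ z1 z - slow m 0 b κ ζ z1 z‖ ≤
      4 * ε + 2 * θ * (1/2) ^ k := by
    intro k
    induction k with
    | zero =>
      intro z hz
      calc _ ≤ ‖slow m η b κ ζ z1 z‖ + ‖slow m 0 b κ ζ z1 z‖ := norm_sub_le _ _
        _ ≤ θ + θ := add_le_add (hg z hz) (hg0 z hz)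
        _ ≤ _ := by simp; linarith
    | succ k ih =>
      intro z hz
      have h1 := stp_contr hp0 ha hgd hgd0 hg hg0 ih z hz
      have h2 := hstep z hz
      rw [slow_eq hp ha hz, slow_eq hp0 ha hz]
      calc _ ≤ ‖stp m η b κ ζ z1 (slow m η b κ ζ z1) z -
              stp m 0 b κ ζ z1 (slow m η b κ ζ z1) z‖ +
            ‖stp m 0 b κ ζ z1 (slow m η b κ ζ z1) z - stp m 0 b κ ζ z1 (slow m 0 b κ ζ z1) z‖ :=
            norm_sub_le_norm_sub_add_norm_sub _ _ _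
        _ ≤ 2 * ε + (4 * ε + 2 * θ * (1/2) ^ k) / 2 := add_le_add h2 h1
        _ = _ := by rw [pow_succ]; ring
  intro z hz
  have h0 : Tendsto (fun k : ℕ => 4 * ε + 2 * θ * (1/2:ℝ) ^ k) atTop (𝓝 (4 * ε)) := by
    simpa using ((tendsto_pow_atTop_nhds_zero_of_lt_one (by norm_num : (0:ℝ) ≤ 1/2)
      (by norm_num)).const_mul (2 * θ)).const_add (4 * ε)
  exact ge_of_tendsto' h0 (fun k => key k z hz)

/-- closeness of the first derivatives. -/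
theorem norm_slow1_sub_lin_le (hp : Par m η z1 x s t Λ θ0 θ L) (hp0 : Par m 0 z1 x s t Λ θ0 θ L)
    (ha : Adm s t Λ θ0 b κ ζ) :
    ∀ z ∈ HP x, ‖slow1 m η b κ ζ z1 z - slow1 m 0 b κ ζ z1 z‖ ≤
      KK s t * (‖η‖ * θ ^ (2 * m + 1) + Λ * (4 * (KK s t * (‖η‖ * θ ^ (2 * m + 1)) / x))) := by
  intro z hz
  have hx0 := hp.x_pos
  have hθ := hp.θ_nonneg
  have hΛ := hp.hΛ
  have hKK := KK_nonneg s t
  set δ := 4 * (KK s t * (‖η‖ * θ ^ (2 * m + 1)) / x) with hδ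
  have hδ0 : 0 ≤ δ := by positivity
  have hg := norm_slow_le hp ha
  have hgd := differentiableOn_slow hp ha
  have hg0 := norm_slow_le hp0 ha
  have hgd0 := differentiableOn_slow hp0 ha
  have hN1 := norm_Nl_le (κ := κ) hp ha.hκ hg
  have hN2 := norm_Nl_le (κ := κ) hp0 ha.hκ hg0
  have hc1 := (differentiableOn_Nl (m := m) (η := η) (κ := κ) hgd).continuousOn
  have hc2 := (differentiableOn_Nl (m := m) (η := 0) (κ := κ) hgd0).continuousOn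
  unfold slow1
  rw [← T_sub hp.hx ha.hb2 hc1 hc2 hN1 hN2 hz]
  have hbd : ∀ z ∈ HP x, ‖Nl m η κ (slow m η b κ ζ z1) z - Nl m 0 κ (slow m 0 b κ ζ z1) z‖ ≤
      ‖η‖ * θ ^ (2 * m + 1) + Λ * δ := by
    intro z hz
    have e : Nl m η κ (slow m η b κ ζ z1) z - Nl m 0 κ (slow m 0 b κ ζ z1) z =
        (Nl m η κ (slow m η b κ ζ z1) z - Nl m 0 κ (slow m η b κ ζ z1) z) +
        (-κ) * (slow m η b κ ζ z1 z - slow m 0 b κ ζ z1 z) := by
      rw [Nl_zero, Nl_zero]; ring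
    rw [e]
    refine (norm_add_le _ _).trans (add_le_add (norm_Nl_sub_zero_le hp hg z hz) ?_)
    rw [norm_mul, norm_neg]
    exact mul_le_mul ha.hκ (norm_slow_sub_lin_le hp hp0 ha z hz) (norm_nonneg _) hΛ
  have hn : 1 ≤ ‖z‖ := one_le_norm_of_HP (HP_mono hp.hx hz)
  refine (norm_T_le hp.hx hz ha.hb2 ha.hbs ha.hbt hbd).trans ?_
  apply div_le_self (by positivity)
  nlinarith

end compare

end Vale.Agent.P139.H460
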