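import Vale.Agent.P139.H460.FF3
import Vale.Agent.P139.H460.PSpec

/-!
# P139 / H460 / FF4 : real form of the far field
-/

open MeasureTheory Set Filter Topology Complex

namespace Vale.Agent.P139.H460


/-- exponent `κ = i w - a`. -/
noncomputable def k0 (a w : ℝ) : ℂ := I * w - a

/-- `b = d/2 + 2 κ`. -/
noncomputable def bb (d : ℕ) (a w : ℝ) : ℂ := (d:ℂ)/2 + 2 * k0 a w

/-- `κ(κ - 1 + d/2)`. -/
noncomputable def kk (d : ℕ) (a w : ℝ) : ℂ := k0 a w * (k0 a w - 1 + (d:ℂ)/2)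

/-- `z^κ`. -/
noncomputable def zk (a w : ℝ) (z : ℂ) : ℂ := Complex.exp (k0 a w * Complex.log z)

/-- `𝒬(z) = z^κ g(z)`. -/
noncomputable def QQ (d m : ℕ) (η : ℂ) (a w : ℝ) (ζ z1 z : ℂ) : ℂ :=
  zk a w z * slow m η (bb d a w) (kk d a w) ζ z1 z

/-- `𝒬'(z)`. -/
noncomputable def QQ1 (d m : ℕ) (η : ℂ) (a w : ℝ) (ζ z1 z : ℂ) : ℂ :=
  zk a w z * (slow1 m η (bb d a w) (kk d a w) ζ z1 z +
    k0 a w / z * slow m η (bb d a w) (kk d a w) ζ z1 z)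

lemma hasDerivAt_zk {a w : ℝ} {z : ℂ} (hz : z ∈ slitPlane) :
    HasDerivAt (zk a w) (k0 a w / z * zk a w z) z := by
  unfold zk
  refine (((Complex.hasDerivAt_log hz).const_mul (k0 a w)).cexp).congr_deriv ?_
  rw [div_eq_mul_inv]; ring

lemma zk_ne_zero (a w : ℝ) (z : ℂ) : zk a w z ≠ 0 := Complex.exp_ne_zero _

section

variable {d m : ℕ} {η z1 : ℂ} {x s t Λ θ0 θ L a w : ℝ} {ζ : ℂ}

theorem hasDerivAt_QQ (hp : Par m η z1 x s t Λ θ0 θ L)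
    (ha : Adm s t Λ θ0 (bb d a w) (kk d a w) ζ) {z : ℂ} (hz : z ∈ HP x) :
    HasDerivAt (QQ d m η a w ζ z1) (QQ1 d m η a w ζ z1 z) z := by
  have hs : z ∈ slitPlane := HP_slit (zero_le_one.trans hp.hx) hz
  refine ((hasDerivAt_zk hs).mul (hasDerivAt_slow hp ha hz)).congr_deriv ?_
  unfold QQ1; ring

/-- The ODE for `𝒬` in the variable `z`. -/
theorem hasDerivAt_QQ1 (hp : Par m η z1 x s t Λ θ0 θ L)
    (ha : Adm s t Λ θ0 (bb d a w) (kk d a w) ζ) {z : ℂ} (hz : z ∈ HP x) :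
    HasDerivAt (QQ1 d m η a w ζ z1)
      ((-((d:ℂ)/2 + I * z) * QQ1 d m η a w ζ z1 z - (w + I * a) * QQ d m η a w ζ z1 z
        + z⁻¹ * (η * (slow m η (bb d a w) (kk d a w) ζ z1 z *
          (starRingEnd ℂ) (slow m η (bb d a w) (kk d a w) ζ z1 ((starRingEnd ℂ) z))) ^ m) * QQ d m η a w ζ z1 z) / z) z := by
  have hx0 := hp.x_pos
  have hs : z ∈ slitPlane := HP_slit hx0.le hz
  have hz0 : z ≠ 0 := ne_zero_of_HP hx0.le hz
  have h1 := hasDerivAt_zk (a := a) (w := w) hs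
  have h2 := hasDerivAt_slow hp ha hz
  have h3 := hasDerivAt_slow1 hp ha hz
  have h4 : HasDerivAt (fun z : ℂ => k0 a w / z) (-(k0 a w) / z^2) z := by
    refine ((hasDerivAt_inv hz0).const_mul (k0 a w)).congr_deriv ?_ |>.congr_of_eventuallyEq ?_
    · ring
    · filter_upwards with z; rw [div_eq_mul_inv]
  have h5 := h1.mul (h3.add (h4.mul h2))
  refine h5.congr_deriv ?_
  have e1 : I * k0 a w = -(w + I * a) := by
    unfold k0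
    ring_nf
    simp
    ring
  simp only [QQ1, QQ, Nl, Pi.add_apply, Pi.mul_apply]
  set g := slow m η (bb d a w) (kk d a w) ζ z1 z
  set h := slow1 m η (bb d a w) (kk d a w) ζ z1 z
  set gs := (starRingEnd ℂ) (slow m η (bb d a w) (kk d a w) ζ z1 ((starRingEnd ℂ) z))
  set Z := zk a w z
  have e2 : (w + I * a : ℂ) = - (I * k0 a w) := by rw [e1]; ring
  rw [e2]
  unfold bb kk
  set k := k0 a w
  field_simp
  ring

/-- far field profile in the variable `r`. -/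
noncomputable def Qf (d m : ℕ) (η : ℂ) (a w : ℝ) (ζ z1 : ℂ) (r : ℝ) : ℂ :=
  QQ d m η a w ζ z1 ((r ^ 2 / 4 : ℝ) : ℂ)

/-- its derivative. -/
noncomputable def Qf1 (d m : ℕ) (η : ℂ) (a w : ℝ) (ζ z1 : ℂ) (r : ℝ) : ℂ :=
  (r / 2 : ℝ) * QQ1 d m η a w ζ z1 ((r ^ 2 / 4 : ℝ) : ℂ)

lemma ofReal_mem_HP {x r : ℝ} (h : x < r ^ 2 / 4) : (((r ^ 2 / 4 : ℝ)) : ℂ) ∈ HP x := by
  rw [mem_HP, ofReal_re]; exact h

lemma norm_zk_real {a w z : ℝ} (hz : 0 < z) : ‖zk a w (z : ℂ)‖ = Real.exp (-(a * Real.log z)) := by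
  unfold zk k0
  rw [Complex.norm_exp, ← Complex.ofReal_log hz.le]
  congr 1
  simp

/-- The general ODE in the variable `r`. -/
theorem radODE_Qf (hp : Par m η z1 x s t Λ θ0 θ L)
    (ha : Adm s t Λ θ0 (bb d a w) (kk d a w) ζ) {r : ℝ} (hr0 : 0 < r) (hr : x < r ^ 2 / 4) :
    HasDerivAt (Qf d m η a w ζ z1) (Qf1 d m η a w ζ z1 r) r ∧
    HasDerivAt (Qf1 d m η a w ζ z1)
      (-((((d:ℝ) - 1) / r : ℝ) + I * (r / 2 : ℝ)) * Qf1 d m η a w ζ z1 r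
        - ((w:ℂ) + I * a) * Qf d m η a w ζ z1 r
        + (((r ^ 2 / 4 : ℝ)) : ℂ)⁻¹ * (η * ((‖slow m η (bb d a w) (kk d a w) ζ z1
            ((r ^ 2 / 4 : ℝ) : ℂ)‖ ^ 2 : ℝ) : ℂ) ^ m) * Qf d m η a w ζ z1 r) r := by
  have hz := ofReal_mem_HP hr
  have hdz : HasDerivAt (fun r : ℝ => (((r ^ 2 / 4 : ℝ)) : ℂ)) ((r / 2 : ℝ) : ℂ) r := by
    have h0 : HasDerivAt (fun r : ℝ => r ^ 2 / 4) (r / 2) r := by
      refine ((hasDerivAt_pow 2 r).div_const 4).congr_deriv ?_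
      norm_num; ring
    exact h0.ofReal_comp
  have h1 := HasDerivAt.scomp (𝕜 := ℝ) (h := fun r : ℝ => (((r ^ 2 / 4 : ℝ)) : ℂ)) r
    (hasDerivAt_QQ (d := d) (a := a) (w := w) hp ha hz) hdz
  have h2 := HasDerivAt.scomp (𝕜 := ℝ) (h := fun r : ℝ => (((r ^ 2 / 4 : ℝ)) : ℂ)) r
    (hasDerivAt_QQ1 (d := d) (a := a) (w := w) hp ha hz) hdz
  constructor
  · refine h1.congr_deriv ?_
    unfold Qf1; rw [smul_eq_mul]
  · have h3 : HasDerivAt (fun r : ℝ => ((r / 2 : ℝ) : ℂ)) (((1:ℝ) / 2 : ℝ) : ℂ) r :=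
      ((hasDerivAt_id r).div_const 2).ofReal_comp
    have h4 := h3.mul h2
    refine h4.congr_deriv ?_
    simp only [Function.comp_def, smul_eq_mul, Qf1, Qf]
    have hcj : (starRingEnd ℂ) (((r ^ 2 / 4 : ℝ)) : ℂ) = (((r ^ 2 / 4 : ℝ)) : ℂ) := Complex.conj_ofReal _
    rw [hcj, Complex.mul_conj, Complex.normSq_eq_norm_sq]
    set G := (η * ((‖slow m η (bb d a w) (kk d a w) ζ z1 ((r ^ 2 / 4 : ℝ) : ℂ)‖ ^ 2 : ℝ) : ℂ) ^ m)
    set A := QQ d m η a w ζ z1 ((r ^ 2 / 4 : ℝ) : ℂ)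
    set B := QQ1 d m η a w ζ z1 ((r ^ 2 / 4 : ℝ) : ℂ)
    have hr' : (r : ℂ) ≠ 0 := by exact_mod_cast hr0.ne'
    push_cast
    field_simp
    ring

/-- **Nonlinear far field.** -/
theorem radODE_Qf_nonlinear (hm : 1 ≤ m) (hp : Par m 1 z1 x s t Λ θ0 θ L)
    (ha : Adm s t Λ θ0 (bb d (1 / (2 * m)) w) (kk d (1 / (2 * m)) w) ζ) {S : Set ℝ}
    (hS : ∀ r ∈ S, 0 < r ∧ x < r ^ 2 / 4) :
    RadODE d (1 / (2 * m)) w (fun r => ‖Qf d m 1 (1 / (2 * m)) w ζ z1 r‖ ^ (2 * m))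
      (Qf d m 1 (1 / (2 * m)) w ζ z1) (Qf1 d m 1 (1 / (2 * m)) w ζ z1) S := by
  have key : ∀ r ∈ S, ((‖Qf d m 1 (1 / (2 * m)) w ζ z1 r‖ ^ (2 * m) : ℝ) : ℂ) =
      (((r ^ 2 / 4 : ℝ)) : ℂ)⁻¹ * (1 * ((‖slow m 1 (bb d (1 / (2 * m)) w) (kk d (1 / (2 * m)) w) ζ z1
            ((r ^ 2 / 4 : ℝ) : ℂ)‖ ^ 2 : ℝ) : ℂ) ^ m) := by
    intro r hr
    obtain ⟨hr0, hrx⟩ := hS r hr
    have hz : 0 < r ^ 2 / 4 := by positivity
    unfold Qf QQ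
    rw [norm_mul, norm_zk_real hz, mul_pow, ← Real.exp_nat_mul]
    have hm' : (m : ℝ) ≠ 0 := by positivity
    have e1 : ((2 * m : ℕ) : ℝ) * -(1 / (2 * (m:ℝ)) * Real.log (r ^ 2 / 4)) =
        - Real.log (r ^ 2 / 4) := by push_cast; field_simp
    rw [e1, Real.exp_neg, Real.exp_log hz, pow_mul]
    push_cast
    ring
  constructor
  · intro r hr
    obtain ⟨hr0, hrx⟩ := hS r hr
    exact (radODE_Qf hp ha hr0 hrx).1
  · intro r hr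
    obtain ⟨hr0, hrx⟩ := hS r hr
    have h := (radODE_Qf hp ha hr0 hrx).2
    rw [← key r hr] at h
    convert h using 1

/-- **Linear far field.** -/
theorem radODE_Qf_linear (hp : Par m 0 z1 x s t Λ θ0 θ L)
    (ha : Adm s t Λ θ0 (bb d a w) (kk d a w) ζ) {S : Set ℝ}
    (hS : ∀ r ∈ S, 0 < r ∧ x < r ^ 2 / 4) :
    RadODE d a w (fun _ => 0) (Qf d m 0 a w ζ z1) (Qf1 d m 0 a w ζ z1) S := by
  constructor
  · intro r hr
    obtain ⟨hr0, hrx⟩ := hS r hr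
    exact (radODE_Qf hp ha hr0 hrx).1
  · intro r hr
    obtain ⟨hr0, hrx⟩ := hS r hr
    have h := (radODE_Qf hp ha hr0 hrx).2
    refine h.congr_deriv ?_
    simp

end

end Vale.Agent.P139.H460
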