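import Vale.Agent.P139.H460.FF4

/-!
# P139 / H460 / FF5 : choice of the size parameters
-/

open MeasureTheory Set Filter Topology Complex

namespace Vale.Agent.P139.H460


lemma odd_mul_pow_le {θ : ℝ} (h0 : 0 ≤ θ) (h1 : θ < 1) (m : ℕ) :
    (2 * m + 1) * θ ^ (2 * m) ≤ 1 / (1 - θ) := by
  have h2 : ∀ j ∈ Finset.range (2 * m + 1), θ ^ (2 * m) ≤ θ ^ j := by
    intro j hj
    exact pow_le_pow_of_le_one h0 h1.le (by have := Finset.mem_range.1 hj; omega)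
  have h3 : (2 * m + 1) * θ ^ (2 * m) ≤ ∑ j ∈ Finset.range (2 * m + 1), θ ^ j := by
    have := Finset.sum_le_sum h2
    simpa using this
  refine h3.trans ?_
  rw [geom_sum_eq h1.ne, ← neg_div_neg_eq]
  have : 0 < 1 - θ := by linarith
  rw [neg_sub, neg_sub]
  gcongr
  have : 0 ≤ θ ^ (2 * m + 1) := by positivity
  linarith

/-- size constant `Λ`. -/
noncomputable def LamC (d : ℕ) (W : ℝ) : ℝ := (W + 1) * (W + 2 + (d:ℝ) / 2)

lemma norm_k0_le {a w W : ℝ} (ha : 0 ≤ a) (ha' : a ≤ 1 / 2) (hw : |w| ≤ W) : ‖k0 a w‖ ≤ W + 1 := by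
  unfold k0
  calc ‖I * (w:ℂ) - a‖ ≤ ‖I * (w:ℂ)‖ + ‖(a:ℂ)‖ := norm_sub_le _ _
    _ = |w| + |a| := by simp
    _ ≤ W + 1 := by rw [abs_of_nonneg ha]; linarith

theorem adm_of {d : ℕ} (hd : 6 ≤ d) {a w W θ0 : ℝ} (ha : 0 ≤ a) (ha' : a ≤ 1 / 2) (hw : |w| ≤ W)
    {ζ : ℂ} (hζ : ‖ζ‖ ≤ θ0) :
    Adm ((d:ℝ) / 2 - 2) (2 * W) (LamC d W) θ0 (bb d a w) (kk d a w) ζ := by
  have hd' : (6:ℝ) ≤ d := by exact_mod_cast hd
  have hre : (bb d a w).re = (d:ℝ) / 2 - 2 * a := by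
    unfold bb k0; simp; ring
  have him : (bb d a w).im = 2 * w := by
    unfold bb k0; simp
  refine ⟨?_, ?_, ?_, ?_, hζ⟩
  · rw [hre]; linarith
  · rw [hre]; linarith
  · rw [him, abs_mul, abs_of_pos (by norm_num : (0:ℝ) < 2)]; linarith
  · have h1 := norm_k0_le ha ha' hw
    have h2 : ‖k0 a w - 1 + (d:ℂ)/2‖ ≤ W + 2 + (d:ℝ)/2 := by
      calc ‖k0 a w - 1 + (d:ℂ)/2‖ ≤ ‖k0 a w‖ + ‖(1:ℂ)‖ + ‖(d:ℂ)/2‖ :=
            (norm_add_le _ _).trans (by gcongr; exact norm_sub_le _ _)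
        _ ≤ (W + 1) + 1 + (d:ℝ)/2 := by
            gcongr
            · simp
            · simp
        _ = _ := by ring
    unfold kk LamC
    rw [norm_mul]
    have : 0 ≤ W := (abs_nonneg w).trans hw
    exact mul_le_mul h1 h2 (norm_nonneg _) (by linarith)

/-- monotonicity of `Par` in `x`. -/
lemma Par.of_le {m : ℕ} {η z1 : ℂ} {x x' s t Λ θ0 θ L : ℝ} (hp : Par m η z1 x s t Λ θ0 θ L)
    {z1' : ℂ} (h : x ≤ x') (hz : z1' ∈ HP x') : Par m η z1' x' s t Λ θ0 θ L := by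
  have hx0 := hp.x_pos
  have hKK := KK_nonneg s t
  have hΛ := hp.hΛ
  have hθ := hp.θ_nonneg
  have hL := hp.L_nonneg
  refine ⟨hp.hx.trans h, hz, hp.hΛ, hp.hθ0, hp.hθ, hp.hL, hp.hη, ?_, ?_⟩
  · refine le_trans ?_ hp.hball
    gcongr
  · refine le_trans ?_ hp.hcontr
    gcongr

/-- Existence of a good half plane, uniformly in `m` (both for the nonlinear and the linear
problem). -/
theorem exists_par {s t Λ θ0 θ : ℝ} (hΛ : 0 ≤ Λ) (h0 : 0 ≤ θ0) (h1 : θ0 < θ) (h2 : θ < 1) :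
    ∃ x0 : ℝ, 1 ≤ x0 ∧ ∀ x ≥ x0, ∀ z1 ∈ HP x, ∀ m : ℕ,
      Par m 1 z1 x s t Λ θ0 θ (1 / (1 - θ)) ∧ Par m 0 z1 x s t Λ θ0 θ (1 / (1 - θ)) := by
  have hKK := KK_nonneg s t
  have hθ : 0 ≤ θ := h0.trans h1.le
  have hd : 0 < θ - θ0 := by linarith
  have hd1 : 0 < 1 - θ := by linarith
  set A := 2 * KK s t * ((1 + Λ) * θ) / (θ - θ0) with hA
  set B := 4 * KK s t * (1 / (1 - θ) + Λ) with hB
  have hA0 : 0 ≤ A := by positivity
  have hB0 : 0 ≤ B := by positivity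
  refine ⟨1 + A + B, by linarith, ?_⟩
  intro x hx z1 hz1 m
  have hx0 : 0 < x := by linarith
  have hball : 2 * KK s t * ((1 + Λ) * θ) / x ≤ θ - θ0 := by
    rw [div_le_iff₀ hx0]
    have : 2 * KK s t * ((1 + Λ) * θ) = A * (θ - θ0) := by rw [hA]; field_simp
    rw [this]
    nlinarith
  have hcontr : 4 * KK s t * (1 / (1 - θ) + Λ) / x ≤ 1 := by
    rw [div_le_iff₀ hx0]; linarith
  constructor
  · refine ⟨by linarith, hz1, hΛ, h0, h1.le, ?_, ?_, hball, hcontr⟩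
    · simpa using odd_mul_pow_le hθ h2 m
    · simpa using pow_le_one₀ hθ h2.le
  · refine ⟨by linarith, hz1, hΛ, h0, h1.le, ?_, ?_, hball, hcontr⟩
    · simp; exact h2.le
    · simp

/-- The linear problem, with ball of radius `2` around `ζ = 1`. -/
theorem exists_par_lin {s t Λ : ℝ} (hΛ : 0 ≤ Λ) :
    ∃ x0 : ℝ, 1 ≤ x0 ∧ ∀ x ≥ x0, ∀ z1 ∈ HP x, ∀ m : ℕ, Par m 0 z1 x s t Λ 1 2 0 := by
  have hKK := KK_nonneg s t
  set A := 2 * KK s t * ((1 + Λ) * 2) with hA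
  set B := 4 * KK s t * (0 + Λ) with hB
  have hA0 : 0 ≤ A := by positivity
  have hB0 : 0 ≤ B := by positivity
  refine ⟨1 + A + B, by linarith, ?_⟩
  intro x hx z1 hz1 m
  have hx0 : 0 < x := by linarith
  refine ⟨by linarith, hz1, hΛ, by norm_num, by norm_num, by simp, by simp, ?_, ?_⟩
  · rw [div_le_iff₀ hx0]; linarith
  · rw [div_le_iff₀ hx0]; linarith

/-! ### linearity in `ζ` for `η = 0` -/

lemma T_smul (b c : ℂ) (F : ℂ → ℂ) (z : ℂ) : T b (fun z => c * F z) z = c * T b F z := by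
  unfold T
  have : ∀ y : ℝ, Ker b z y * (c * F (z + y * I)) = c * (Ker b z y * F (z + y * I)) := by
    intro y; ring
  simp_rw [this, integral_const_mul]
  ring

lemma S_smul (b c : ℂ) (F : ℂ → ℂ) (z : ℂ) : S b (fun z => c * F z) z = c * S b F z := by
  unfold S
  simp_rw [T_smul, integral_const_mul]
  ring

lemma itr_lin (m : ℕ) (b κ ζ z1 : ℂ) (k : ℕ) (z : ℂ) :
    itr m 0 b κ ζ z1 k z = ζ * itr m 0 b κ 1 z1 k z := by
  induction k generalizing z with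
  | zero => simp [itr]
  | succ k ih =>
    have h1 : Nl m 0 κ (itr m 0 b κ ζ z1 k) = fun z => ζ * Nl m 0 κ (itr m 0 b κ 1 z1 k) z := by
      funext z; rw [Nl_zero, Nl_zero, ih]; ring
    simp only [itr, stp, h1, S_smul]
    ring

lemma slow_lin {m : ℕ} {z1 b κ ζ : ℂ} {x s t Λ θ0 θ L θ0' θ' L' : ℝ}
    (hp : Par m 0 z1 x s t Λ θ0 θ L) (ha : Adm s t Λ θ0 b κ ζ)
    (hp' : Par m 0 z1 x s t Λ θ0' θ' L') (ha' : Adm s t Λ θ0' b κ 1) {z : ℂ} (hz : z ∈ HP x) :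
    slow m 0 b κ ζ z1 z = ζ * slow m 0 b κ 1 z1 z := by
  have h1 := tendsto_itr hp ha hz
  have h2 := (tendsto_itr hp' ha' hz).const_mul ζ
  simp_rw [itr_lin m b κ ζ z1] at h1
  exact tendsto_nhds_unique h1 h2

/-- `slow m 0` does not depend on `m`. -/
lemma itr_zero_m (m m' : ℕ) (b κ ζ z1 : ℂ) (k : ℕ) (z : ℂ) :
    itr m 0 b κ ζ z1 k z = itr m' 0 b κ ζ z1 k z := by
  induction k generalizing z with
  | zero => simp [itr]
  | succ k ih =>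
    have h1 : Nl m 0 κ (itr m 0 b κ ζ z1 k) = Nl m' 0 κ (itr m' 0 b κ ζ z1 k) := by
      funext z; rw [Nl_zero, Nl_zero, ih]
    simp only [itr, stp, h1]

lemma slow_zero_m (m m' : ℕ) (b κ ζ z1 z : ℂ) :
    slow m 0 b κ ζ z1 z = slow m' 0 b κ ζ z1 z := by
  unfold slow
  congr 1
  funext k
  exact itr_zero_m m m' b κ ζ z1 k z

end Vale.Agent.P139.H460
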