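import Vale.Agent.P139.H460.FF5

/-!
# P139 / H460 / FF6 : uniqueness of the linear slow solution in the half plane
-/

open MeasureTheory Set Filter Topology Complex

namespace Vale.Agent.P139.H460


lemma convex_HP (x : ℝ) : Convex ℝ (HP x) := by
  have : HP x = Complex.re ⁻¹' (Ioi x) := rfl
  rw [this]
  exact (convex_Ioi x).linear_preimage Complex.reLm

lemma norm_zk_le {a w : ℝ} (ha : 0 ≤ a) {z : ℂ} (hz : z ∈ HP 1) :
    ‖zk a w z‖ ≤ Real.exp (Real.pi * |w|) := by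
  unfold zk k0
  rw [Complex.norm_exp]
  apply Real.exp_le_exp.2
  have h1 : ((I * (w:ℂ) - a) * Complex.log z).re = - (a * Real.log ‖z‖) - w * z.arg := by
    simp [Complex.log_re, Complex.log_im]
  rw [h1]
  have h2 : 0 ≤ Real.log ‖z‖ := Real.log_nonneg (one_le_norm_of_HP hz)
  have h3 : -(w * z.arg) ≤ Real.pi * |w| := by
    calc -(w * z.arg) ≤ |w * z.arg| := neg_le_abs _
      _ = |w| * |z.arg| := abs_mul _ _
      _ ≤ |w| * Real.pi := by gcongr; exact Complex.abs_arg_le_pi z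
      _ = _ := mul_comm _ _
  have h4 : 0 ≤ a * Real.log ‖z‖ := mul_nonneg ha h2
  linarith

section

variable {d m : ℕ} {η z1 : ℂ} {x s t Λ θ0 θ L a w : ℝ} {ζ : ℂ}

lemma norm_QQ_le (hp : Par m η z1 x s t Λ θ0 θ L) (h0 : 0 ≤ a)
    (ha : Adm s t Λ θ0 (bb d a w) (kk d a w) ζ) {z : ℂ} (hz : z ∈ HP x) :
    ‖QQ d m η a w ζ z1 z‖ ≤ Real.exp (Real.pi * |w|) * θ := by
  unfold QQ
  rw [norm_mul]
  exact mul_le_mul (norm_zk_le h0 (HP_mono hp.hx hz)) (norm_slow_le hp ha z hz) (norm_nonneg _)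
    (by positivity)

lemma norm_QQ1_le (hp : Par m η z1 x s t Λ θ0 θ L) (h0 : 0 ≤ a)
    (ha : Adm s t Λ θ0 (bb d a w) (kk d a w) ζ) {z : ℂ} (hz : z ∈ HP x) :
    ‖QQ1 d m η a w ζ z1 z‖ ≤ Real.exp (Real.pi * |w|) *
      (KK s t * ((1 + Λ) * θ) + ‖k0 a w‖ * θ) := by
  have hθ := hp.θ_nonneg
  have hΛ := hp.hΛ
  have hKK := KK_nonneg s t
  have hn : 1 ≤ ‖z‖ := one_le_norm_of_HP (HP_mono hp.hx hz)
  unfold QQ1
  rw [norm_mul]
  refine mul_le_mul (norm_zk_le h0 (HP_mono hp.hx hz)) ?_ (norm_nonneg _) (by positivity)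
  refine (norm_add_le _ _).trans (add_le_add ?_ ?_)
  · refine (norm_slow1_le hp ha hz).trans (div_le_self (by positivity) (by nlinarith))
  · rw [norm_mul, norm_div]
    exact mul_le_mul (div_le_self (norm_nonneg _) hn) (norm_slow_le hp ha z hz) (norm_nonneg _)
      (norm_nonneg _)

/-- `e^{-y} |z + i y|^{D} (1+|z+iy|)^N → 0`. -/
lemma tendsto_growth (z : ℂ) (D : ℝ) (hD : 0 ≤ D) (N : ℕ) :
    Tendsto (fun y : ℝ => Real.exp (-y) * (1 + ‖z + y * I‖) ^ D * (1 + ‖z + y * I‖) ^ N)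
      atTop (𝓝 0) := by
  obtain ⟨M, hM⟩ := exists_nat_ge D
  have hbound : ∀ y : ℝ, 0 ≤ y →
      Real.exp (-y) * (1 + ‖z + y * I‖) ^ D * (1 + ‖z + y * I‖) ^ N ≤
      Real.exp (-y) * ((1 + ‖z‖) + y) ^ (M + N) := by
    intro y hy
    have h1 : ‖z + y * I‖ ≤ ‖z‖ + y := by
      calc ‖z + y * I‖ ≤ ‖z‖ + ‖(y:ℂ) * I‖ := norm_add_le _ _
        _ = ‖z‖ + y := by simp [abs_of_nonneg hy]
    have h2 : (1:ℝ) ≤ 1 + ‖z + y * I‖ := by linarith [norm_nonneg (z + y * I)]
    have h3 : (1 + ‖z + y * I‖) ^ D ≤ (1 + ‖z + y * I‖) ^ M := by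
      rw [← Real.rpow_natCast]
      exact Real.rpow_le_rpow_of_exponent_le h2 hM
    calc Real.exp (-y) * (1 + ‖z + y * I‖) ^ D * (1 + ‖z + y * I‖) ^ N
        ≤ Real.exp (-y) * (1 + ‖z + y * I‖) ^ M * (1 + ‖z + y * I‖) ^ N := by gcongr
      _ = Real.exp (-y) * (1 + ‖z + y * I‖) ^ (M + N) := by rw [mul_assoc, ← pow_add]
      _ ≤ Real.exp (-y) * ((1 + ‖z‖) + y) ^ (M + N) :=
          mul_le_mul_of_nonneg_left (pow_le_pow_left₀ (by linarith) (by linarith) _)
            (Real.exp_pos _).le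
  have hlim : Tendsto (fun y : ℝ => Real.exp (-y) * ((1 + ‖z‖) + y) ^ (M + N)) atTop (𝓝 0) := by
    set c := 1 + ‖z‖ with hc
    have h4 : Tendsto (fun u : ℝ => u ^ (M + N) * Real.exp (-u)) atTop (𝓝 0) :=
      Real.tendsto_pow_mul_exp_neg_atTop_nhds_zero (M + N)
    have h5 : Tendsto (fun y : ℝ => c + y) atTop atTop := tendsto_atTop_add_const_left _ _ tendsto_id
    have h6 := (h4.comp h5).const_mul (Real.exp c)
    simp only [Function.comp_def, mul_zero] at h6
    refine h6.congr (fun y => ?_)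
    have : Real.exp (-y) = Real.exp c * Real.exp (-(c + y)) := by
      rw [← Real.exp_add]; congr 1; ring
    rw [this]; ring
  refine squeeze_zero' ?_ ?_ hlim
  · filter_upwards with y; positivity
  · filter_upwards [eventually_ge_atTop (0:ℝ)] with y hy using hbound y hy

/-- **Uniqueness of the slow solution of the linear equation** in the half plane. -/
theorem lin_unique (hp : Par m 0 z1 x s t Λ θ0 θ L) (h0 : 0 ≤ a)
    (ha : Adm s t Λ θ0 (bb d a w) (kk d a w) ζ) (hζ : ζ ≠ 0) {G G1 : ℂ → ℂ}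
    (hG : ∀ z ∈ HP x, HasDerivAt G (G1 z) z)
    (hG1 : ∀ z ∈ HP x, HasDerivAt G1 ((-((d:ℂ)/2 + I * z) * G1 z - (w + I * a) * G z) / z) z)
    {C : ℝ} {N : ℕ} (hgr : ∀ z ∈ HP x, ‖G z‖ ≤ C * (1 + ‖z‖) ^ N ∧ ‖G1 z‖ ≤ C * (1 + ‖z‖) ^ N) :
    ∀ z ∈ HP x, G z * QQ d m 0 a w ζ z1 z1 = G z1 * QQ d m 0 a w ζ z1 z ∧
      G1 z * QQ d m 0 a w ζ z1 z1 = G z1 * QQ1 d m 0 a w ζ z1 z := by
  have hx0 := hp.x_pos
  have hopen := isOpen_HP x
  have hpre : IsPreconnected (HP x) := (convex_HP x).isPreconnected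
  set Q := QQ d m 0 a w ζ z1 with hQdef
  set Q1 := QQ1 d m 0 a w ζ z1 with hQ1def
  have hQ : ∀ z ∈ HP x, HasDerivAt Q (Q1 z) z := fun z hz => hasDerivAt_QQ hp ha hz
  have hQ1 : ∀ z ∈ HP x, HasDerivAt Q1 ((-((d:ℂ)/2 + I * z) * Q1 z - (w + I * a) * Q z) / z) z := by
    intro z hz
    refine (hasDerivAt_QQ1 hp ha hz).congr_deriv ?_
    simp [hQdef, hQ1def]
  -- the weighted Wronskian
  set Ew : ℂ → ℂ := fun z => Complex.exp (I * z + (d:ℂ)/2 * Complex.log z) with hEw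
  have hEwd : ∀ z ∈ HP x, HasDerivAt Ew ((I + (d:ℂ)/2 / z) * Ew z) z := by
    intro z hz
    have h1 : HasDerivAt (fun z : ℂ => I * z + (d:ℂ)/2 * Complex.log z) (I * 1 + (d:ℂ)/2 * z⁻¹) z :=
      ((hasDerivAt_id z).const_mul I).add
        ((Complex.hasDerivAt_log (HP_slit hx0.le hz)).const_mul ((d:ℂ)/2))
    refine h1.cexp.congr_deriv ?_
    rw [hEw, div_eq_mul_inv]; ring
  set Wr : ℂ → ℂ := fun z => G z * Q1 z - G1 z * Q z with hWr
  have hWd : ∀ z ∈ HP x, HasDerivAt (fun z => Ew z * Wr z) 0 z := by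
    intro z hz
    have hz0 : z ≠ 0 := ne_zero_of_HP hx0.le hz
    have h1 := (hEwd z hz).mul (((hG z hz).mul (hQ1 z hz)).sub ((hG1 z hz).mul (hQ z hz)))
    refine h1.congr_deriv ?_
    simp only [Pi.sub_apply, Pi.mul_apply]
    field_simp
    ring
  have hconst : ∀ z ∈ HP x, ∀ z' ∈ HP x, Ew z * Wr z = Ew z' * Wr z' := by
    intro z hz z' hz'
    have := hopen.is_const_of_deriv_eq_zero (𝕜 := ℂ) hpre (f := fun z => Ew z * Wr z)
      (fun z hz => (hWd z hz).differentiableAt.differentiableWithinAt)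
      (fun z hz => (hWd z hz).deriv) hz hz'
    exact this
  have hWr0 : ∀ z ∈ HP x, Wr z = 0 := by
    intro z hz
    have hlim : Tendsto (fun y : ℝ => Ew (z + y * I) * Wr (z + y * I)) atTop (𝓝 0) := by
      set CQ := Real.exp (Real.pi * |w|) * (KK s t * ((1 + Λ) * θ) + ‖k0 a w‖ * θ)
        + Real.exp (Real.pi * |w|) * θ with hCQ
      have hg := tendsto_growth z ((d:ℝ)/2) (by positivity) N
      have hg2 := hg.const_mul (Real.exp (-z.im) * (2 * C * CQ))
      rw [mul_zero] at hg2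
      refine squeeze_zero_norm' ?_ hg2
      filter_upwards [eventually_ge_atTop (0:ℝ)] with y hy
      have hzy : z + y * I ∈ HP x := HP_add_I hz y
      have hzy0 : z + y * I ≠ 0 := ne_zero_of_HP hx0.le hzy
      have hn0 : 0 < ‖z + y * I‖ := norm_pos_iff.2 hzy0
      have e1 : ‖Ew (z + y * I)‖ ≤ Real.exp (-z.im) * (Real.exp (-y) * (1 + ‖z + y * I‖) ^ ((d:ℝ)/2)) := by
        rw [hEw]
        simp only
        rw [Complex.norm_exp]
        have h1 : (I * (z + y * I) + (d:ℂ)/2 * Complex.log (z + y * I)).re =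
            -z.im - y + (d:ℝ)/2 * Real.log ‖z + y * I‖ := by
          have : ((d:ℂ)/2 * Complex.log (z + y * I)).re = (d:ℝ)/2 * Real.log ‖z + y * I‖ := by
            have h2 : ((d:ℂ)/2) = (((d:ℝ)/2 : ℝ) : ℂ) := by push_cast; ring
            rw [h2, Complex.re_ofReal_mul, Complex.log_re]
          rw [Complex.add_re, this]
          simp
          ring
        rw [h1, Real.exp_add, sub_eq_add_neg, Real.exp_add, mul_assoc]
        gcongr
        have h3 : Real.exp ((d:ℝ)/2 * Real.log ‖z + y * I‖) = ‖z + y * I‖ ^ ((d:ℝ)/2) := by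
          rw [Real.rpow_def_of_pos hn0, mul_comm]
        rw [h3]
        exact Real.rpow_le_rpow hn0.le (by linarith) (by positivity)
      have hb1 := norm_QQ_le hp h0 ha hzy
      have hb2 := norm_QQ1_le hp h0 ha hzy
      obtain ⟨g1, g2⟩ := hgr _ hzy
      have hθ := hp.θ_nonneg
      have hΛ := hp.hΛ
      have hKK := KK_nonneg s t
      have hCQ0 : 0 ≤ CQ := by positivity
      have hb1' : ‖Q (z + y * I)‖ ≤ CQ := by
        refine hb1.trans ?_
        rw [hCQ]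
        have : 0 ≤ Real.exp (Real.pi * |w|) * (KK s t * ((1 + Λ) * θ) + ‖k0 a w‖ * θ) := by positivity
        linarith
      have hb2' : ‖Q1 (z + y * I)‖ ≤ CQ := by
        refine hb2.trans ?_
        rw [hCQ]
        have : 0 ≤ Real.exp (Real.pi * |w|) * θ := by positivity
        linarith
      have e2 : ‖Wr (z + y * I)‖ ≤ 2 * C * CQ * (1 + ‖z + y * I‖) ^ N := by
        rw [hWr]
        calc ‖G (z + y * I) * Q1 (z + y * I) - G1 (z + y * I) * Q (z + y * I)‖
            ≤ ‖G (z + y * I)‖ * ‖Q1 (z + y * I)‖ + ‖G1 (z + y * I)‖ * ‖Q (z + y * I)‖ := by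
              refine (norm_sub_le _ _).trans ?_
              rw [norm_mul, norm_mul]
          _ ≤ (C * (1 + ‖z + y * I‖) ^ N) * CQ + (C * (1 + ‖z + y * I‖) ^ N) * CQ := by
              have := (norm_nonneg _).trans g1
              gcongr
          _ = _ := by ring
      rw [norm_mul]
      calc ‖Ew (z + y * I)‖ * ‖Wr (z + y * I)‖
          ≤ (Real.exp (-z.im) * (Real.exp (-y) * (1 + ‖z + y * I‖) ^ ((d:ℝ)/2))) *
            (2 * C * CQ * (1 + ‖z + y * I‖) ^ N) :=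
            mul_le_mul e1 e2 (norm_nonneg _) (by positivity)
        _ = _ := by ring
    have hc : Tendsto (fun y : ℝ => Ew (z + y * I) * Wr (z + y * I)) atTop (𝓝 (Ew z * Wr z)) := by
      refine tendsto_const_nhds.congr (fun y => ?_)
      exact hconst z hz _ (HP_add_I hz y)
    have h9 := tendsto_nhds_unique hc hlim
    exact (mul_eq_zero.1 h9).resolve_left (Complex.exp_ne_zero _)
  -- proportionality
  have hQz1 : Q z1 ≠ 0 := by
    rw [hQdef, QQ, slow_base hp ha]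
    exact mul_ne_zero (zk_ne_zero _ _ _) hζ
  set H : ℂ → ℂ := fun z => G z * Q z1 - G z1 * Q z with hH
  have hHd : ∀ z ∈ HP x, HasDerivAt H (G1 z * Q z1 - G z1 * Q1 z) z := fun z hz =>
    ((hG z hz).mul_const _).sub ((hQ z hz).const_mul _)
  have hHan : AnalyticOnNhd ℂ H (HP x) :=
    DifferentiableOn.analyticOnNhd
      (fun z hz => (hHd z hz).differentiableAt.differentiableWithinAt) hopen
  have hz1 := hp.hz1
  have hev : ∀ᶠ z in 𝓝 z1, Q z ≠ 0 ∧ z ∈ HP x :=
    ((hQ z1 hz1).continuousAt.eventually_ne hQz1).and (hopen.mem_nhds hz1)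
  obtain ⟨r, hr, hball⟩ := Metric.eventually_nhds_iff_ball.1 hev
  have hratio : ∀ z ∈ Metric.ball z1 r, H z / Q z = H z1 / Q z1 := by
    intro z hz
    have hd0 : ∀ z ∈ Metric.ball z1 r, HasDerivAt (fun z => H z / Q z) 0 z := by
      intro z hz
      obtain ⟨hq, hzx⟩ := hball z hz
      refine ((hHd z hzx).div (hQ z hzx) hq).congr_deriv ?_
      have hw := hWr0 z hzx
      simp only [hWr] at hw
      have : (G1 z * Q z1 - G z1 * Q1 z) * Q z - H z * Q1 z = -(Q z1) * (G z * Q1 z - G1 z * Q z) := by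
        simp only [hH]; ring
      rw [this, hw]; simp
    exact Metric.isOpen_ball.is_const_of_deriv_eq_zero (𝕜 := ℂ)
      (convex_ball z1 r).isPreconnected (f := fun z => H z / Q z)
      (fun z hz => (hd0 z hz).differentiableAt.differentiableWithinAt)
      (fun z hz => (hd0 z hz).deriv) hz (Metric.mem_ball_self hr)
  have hHz1 : H z1 = 0 := by simp only [hH]; ring
  have hzero : H =ᶠ[𝓝 z1] 0 := by
    filter_upwards [Metric.ball_mem_nhds z1 hr] with z hz
    have h1 := hratio z hz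
    rw [hHz1, zero_div, div_eq_zero_iff] at h1
    exact h1.resolve_right (hball z hz).1
  have hall := hHan.eqOn_zero_of_preconnected_of_eventuallyEq_zero hpre hz1 hzero
  intro z hz
  have h1 : H z = 0 := hall hz
  refine ⟨sub_eq_zero.1 h1, ?_⟩
  have h2 : HasDerivAt H 0 z := by
    refine (hasDerivAt_const z (0:ℂ)).congr_of_eventuallyEq ?_
    filter_upwards [hopen.mem_nhds hz] with y hy using hall hy
  exact sub_eq_zero.1 ((hHd z hz).unique h2)

end

end Vale.Agent.P139.H460
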