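import Vale.Agent.P139.H460.Match1
import Vale.Agent.P139.H505.Match

/-!
# P139 / H460 / Far1 : the far map of the matching
-/

open MeasureTheory Set Filter Topology Complex Metric

namespace Vale.Agent.P139.H460

/-- The `n = 2m` value of `a`. -/
noncomputable def am (m : ℕ) : ℝ := 1 / ((2 * m : ℕ) : ℝ)

lemma am_nonneg (m : ℕ) : 0 ≤ am m := by unfold am; positivity

lemma am_le {m : ℕ} (hm : 1 ≤ m) : am m ≤ 1 / 2 := by
  unfold am
  have h : (1:ℝ) ≤ m := by exact_mod_cast hm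
  push_cast
  apply one_div_le_one_div_of_le (by norm_num)
  linarith

lemma tendsto_am : Tendsto am atTop (𝓝 0) := by
  have h1 : Tendsto (fun m : ℕ => ((2 * m : ℕ) : ℝ)) atTop atTop := by
    have : Tendsto (fun m : ℕ => 2 * m) atTop atTop :=
      tendsto_id.const_mul_atTop' (by norm_num)
    exact tendsto_natCast_atTop_atTop.comp this
  unfold am
  exact h1.const_div_atTop 1

/-- base point `r₁²/4`. -/
noncomputable def zb (r1 : ℝ) : ℂ := ((r1 ^ 2 / 4 : ℝ) : ℂ)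

/-- exit derivative (in `r`) of the nonlinear slow solution with value `y` at `r₁`. -/
noncomputable def Kfar (d : ℕ) (r1 : ℝ) (m : ℕ) (w : ℝ) (y : ℂ) : ℂ :=
  (r1 / 2 : ℝ) * Ef d m (zb r1) (am m) w y

/-- linear exit log-derivative. -/
noncomputable def kfar (d : ℕ) (r1 : ℝ) (w : ℝ) : ℂ := (r1 / 2 : ℝ) * Kf d (zb r1) 0 w

/-- The set-up of the far field. -/
structure FarPar (d : ℕ) (r1 W θe θ0 θ x : ℝ) : Prop where
  hd : 6 ≤ d
  r1_pos : 0 < r1
  θe_nonneg : 0 ≤ θe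
  h1 : θe < θ0
  h2 : θ0 < θ
  h3 : θ < 1
  non : ∀ m : ℕ, Par m 1 (zb r1) x ((d:ℝ) / 2 - 2) (2 * W) (LamC d W) θ0 θ (1 / (1 - θ))
  lin : ∀ m : ℕ, Par m 0 (zb r1) x ((d:ℝ) / 2 - 2) (2 * W) (LamC d W) θ0 θ (1 / (1 - θ))
  one : ∀ m : ℕ, Par m 0 (zb r1) x ((d:ℝ) / 2 - 2) (2 * W) (LamC d W) 1 2 0
  half : 2 * KK ((d:ℝ) / 2 - 2) (2 * W) * ((1 + LamC d W) * 2) / x ≤ 1 / 2

/-- Existence of the set-up for any large `x`. -/
theorem exists_farPar {d : ℕ} (hd : 6 ≤ d) {W θe θ0 θ : ℝ} (hW : 0 ≤ W) (h0 : 0 ≤ θe) (h1 : θe < θ0)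
    (h2 : θ0 < θ) (h3 : θ < 1) (A : ℝ) :
    ∃ r1 > A, ∃ x, 1 ≤ x ∧ x < r1 ^ 2 / 4 ∧ FarPar d r1 W θe θ0 θ x := by
  have hΛ : 0 ≤ LamC d W := by unfold LamC; positivity
  obtain ⟨x1, hx1, H1⟩ := exists_par (s := (d:ℝ) / 2 - 2) (t := 2 * W) hΛ (h0.trans h1.le) h2 h3
  obtain ⟨x2, hx2, H2⟩ := exists_par_lin (s := (d:ℝ) / 2 - 2) (t := 2 * W) hΛ
  set x := max x1 (2 * x2) with hx
  have hx0 : 1 ≤ x := hx1.trans (le_max_left _ _)
  have hx2x : 2 * x2 ≤ x := le_max_right _ _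
  set r1 := max (2 * x + 2) (A + 1) with hr1
  have hr1x : 2 * x + 2 ≤ r1 := le_max_left _ _
  have hr1A : A + 1 ≤ r1 := le_max_right _ _
  have hz : x < r1 ^ 2 / 4 := by nlinarith
  have hzb : zb r1 ∈ HP x := ofReal_mem_HP hz
  refine ⟨r1, by linarith, x, hx0, hz, hd, by linarith, h0, h1, h2, h3, ?_, ?_, ?_, ?_⟩
  · exact fun m => (H1 x (le_max_left _ _) _ hzb m).1
  · exact fun m => (H1 x (le_max_left _ _) _ hzb m).2
  · exact fun m => H2 x (by linarith) _ hzb m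
  · have hb := (H2 x2 le_rfl ((x2 + 1 : ℝ) : ℂ) (by rw [mem_HP, ofReal_re]; linarith) 0).hball
    have hx20 : 0 < x2 := by linarith
    have hx0' : 0 < x := by linarith
    rw [div_le_iff₀ hx20] at hb
    rw [div_le_iff₀ hx0']
    linarith

section

variable {d : ℕ} {r1 W θe θ0 θ x : ℝ}

lemma FarPar.W_nonneg (h : FarPar d r1 W θe θ0 θ x) {w : ℝ} (hw : |w| ≤ W) : 0 ≤ W :=
  (abs_nonneg w).trans hw

lemma FarPar.x_lt (h : FarPar d r1 W θe θ0 θ x) : x < r1 ^ 2 / 4 := by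
  have := (h.non 0).hz1
  rwa [zb, mem_HP, ofReal_re] at this

lemma FarPar.one_le (h : FarPar d r1 W θe θ0 θ x) : 1 ≤ r1 ^ 2 / 4 :=
  (h.non 0).hx.trans h.x_lt.le

lemma norm_zk_zb (hr : 0 < r1) (a w : ℝ) :
    ‖zk a w (zb r1)‖ = Real.exp (-(a * Real.log (r1 ^ 2 / 4))) :=
  norm_zk_real (by positivity)

lemma FarPar.div_le (h : FarPar d r1 W θe θ0 θ x) :
    ∀ᶠ m : ℕ in atTop, ∀ w : ℝ, ∀ y : ℂ, ‖y‖ ≤ θe → ‖y / zk (am m) w (zb r1)‖ ≤ θ0 := by
  have h1 : Tendsto (fun m : ℕ => θe * Real.exp (am m * Real.log (r1 ^ 2 / 4))) atTop (𝓝 θe) := by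
    have h2 := (tendsto_am.mul_const (Real.log (r1 ^ 2 / 4)))
    rw [zero_mul] at h2
    have h3 := ((Real.continuous_exp.tendsto 0).comp h2).const_mul θe
    simpa using h3
  filter_upwards [h1.eventually (gt_mem_nhds h.h1)] with m hm w y hy
  rw [norm_div, norm_zk_zb h.r1_pos, Real.exp_neg, div_inv_eq_mul]
  exact (mul_le_mul_of_nonneg_right hy (Real.exp_pos _).le).trans hm.le

theorem FarPar.farMap (h : FarPar d r1 W θe θ0 θ x) {wm wp : ℝ}
    (hw : ∀ w ∈ Icc wm wp, |w| ≤ W) :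
    H505.FarMap wm wp θe (Kfar d r1) (kfar d r1) := by
  constructor
  · filter_upwards [h.div_le, eventually_ge_atTop 1] with m hm hm1
    have h1 := continuousOn_Ef (X := ℝ × ℂ) h.hd (h.non m) (am_nonneg m) (am_le hm1)
      (A := Icc wm wp ×ˢ closedBall 0 θe) (w := fun p => p.1) (v := fun p => p.2)
      continuousOn_fst continuousOn_snd (fun p hp => hw p.1 hp.1)
      (fun p hp => hm p.1 p.2 (mem_closedBall_zero_iff.1 hp.2))
    exact continuousOn_const.mul h1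
  · intro ε hε
    set CC : ℝ := Real.exp (Real.pi * W) *
      (KK ((d:ℝ) / 2 - 2) (2 * W) * (1 + LamC d W * (4 * KK ((d:ℝ) / 2 - 2) (2 * W)))) with hCC
    have hr1 := h.r1_pos
    have hθ0 : 0 ≤ θ := h.θe_nonneg.trans (h.h1.le.trans h.h2.le)
    have hlim : Tendsto (fun m : ℕ => (r1 / 2) * (CC * θ ^ (2 * m))) atTop (𝓝 0) := by
      have h1 : Tendsto (fun m : ℕ => (θ ^ 2) ^ m) atTop (𝓝 0) :=
        tendsto_pow_atTop_nhds_zero_of_lt_one (by positivity) (by nlinarith [h.h3])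
      have h2 := (h1.const_mul CC).const_mul (r1 / 2)
      simp only [mul_zero] at h2
      refine h2.congr fun m => ?_
      rw [pow_mul]
    -- uniform continuity of `Kf`
    have hK := continuousOn_Kf (W := W) h.hd (h.one 0)
    have hcomp : IsCompact (Icc (0:ℝ) (1/2) ×ˢ Icc (-W) W) := isCompact_Icc.prod isCompact_Icc
    have hunif := hcomp.uniformContinuousOn_of_continuous hK
    rw [Metric.uniformContinuousOn_iff] at hunif
    obtain ⟨δ, hδ, hδ'⟩ := hunif (ε / (r1 + 1)) (by positivity)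
    filter_upwards [h.div_le, eventually_ge_atTop 1, hlim.eventually (gt_mem_nhds (half_pos hε)),
      tendsto_am.eventually (gt_mem_nhds hδ)] with m hm hm1 hm2 hm3 w hw' y hy
    have hwW := hw w hw'
    have e1 := norm_Ef_sub_le (v := y) h.hd (h.non m) (h.lin m) h.h3.le (h.one 0) (am_nonneg m)
      (am_le hm1) hwW (hm w y hy)
    rw [← hCC] at e1
    have e2 : ‖Kf d (zb r1) (am m) w - Kf d (zb r1) 0 w‖ ≤ ε / (r1 + 1) := by
      have h1 := hδ' (am m, w) ⟨⟨am_nonneg m, am_le hm1⟩, abs_le.1 hwW⟩ (0, w)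
        ⟨⟨le_rfl, by norm_num⟩, abs_le.1 hwW⟩ (by
          rw [Prod.dist_eq, dist_self, Real.dist_eq, sub_zero, abs_of_nonneg (am_nonneg m)]
          exact max_lt hm3 hδ)
      rw [dist_eq_norm] at h1
      exact h1.le
    have e3 : Kfar d r1 m w y - kfar d r1 w * y = ((r1 / 2 : ℝ) : ℂ) *
        ((Ef d m (zb r1) (am m) w y - y * Kf d (zb r1) (am m) w) +
          y * (Kf d (zb r1) (am m) w - Kf d (zb r1) 0 w)) := by
      unfold Kfar kfar; ring
    rw [e3, norm_mul, norm_real, Real.norm_of_nonneg (by positivity)]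
    have hθe1 : ‖y‖ ≤ 1 := hy.trans ((h.h1.le.trans h.h2.le).trans h.h3.le)
    have e4 : ‖(Ef d m (zb r1) (am m) w y - y * Kf d (zb r1) (am m) w) +
          y * (Kf d (zb r1) (am m) w - Kf d (zb r1) 0 w)‖ ≤ CC * θ ^ (2 * m) + ε / (r1 + 1) := by
      refine (norm_add_le _ _).trans (add_le_add e1 ?_)
      rw [norm_mul]
      calc ‖y‖ * ‖Kf d (zb r1) (am m) w - Kf d (zb r1) 0 w‖ ≤ 1 * (ε / (r1 + 1)) := by gcongr
        _ = _ := one_mul _
    calc r1 / 2 * ‖(Ef d m (zb r1) (am m) w y - y * Kf d (zb r1) (am m) w) +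
          y * (Kf d (zb r1) (am m) w - Kf d (zb r1) 0 w)‖
        ≤ r1 / 2 * (CC * θ ^ (2 * m) + ε / (r1 + 1)) := by gcongr
      _ = r1 / 2 * (CC * θ ^ (2 * m)) + r1 / 2 * (ε / (r1 + 1)) := by ring
      _ ≤ ε / 2 + ε / 2 := by
          refine add_le_add hm2.le ?_
          rw [div_mul_div_comm, div_le_div_iff₀ (by positivity) (by norm_num)]
          nlinarith
      _ = ε := by ring

end

end Vale.Agent.P139.H460
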