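import Vale.Agent.P139.H460.Far1
import Vale.Agent.P139.KU.Evans
import Vale.Agent.P139.KU.NonDeg

/-!
# P139 / H460 / Far2 : the confluent hypergeometric function `Qinf` is the linear slow solution
-/

open MeasureTheory Set Filter Topology Complex Metric

namespace Vale.Agent.P139.H460

open Vale.Agent.P139.KU

/-- `J` is bounded on `Re ζ ≥ 1`. -/
lemma exists_J_bound {a : ℂ} (c : ℂ) (ha : 0 < a.re) :
    ∃ M : ℝ, 0 ≤ M ∧ ∀ ζ : ℂ, 1 ≤ ζ.re → ‖J a c ζ‖ ≤ M := by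
  have h1 : (0:ℝ) < (1:ℂ).re := by simp
  refine ⟨Real.exp (|c.im| * (Real.pi / 2)) *
    ∫ s in Ioi (0 : ℝ), Real.exp (-((1:ℝ) * s)) * s ^ (a.re - 1) * (1 + s) ^ |c.re|, ?_, ?_⟩
  · refine mul_nonneg (Real.exp_pos _).le (setIntegral_nonneg measurableSet_Ioi fun s hs => ?_)
    have hs' : (0:ℝ) < s := hs
    positivity
  · intro ζ hζ
    refine (norm_J_le c ha (zero_lt_one.trans_le hζ)).trans ?_
    refine mul_le_mul_of_nonneg_left ?_ (Real.exp_pos _).le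
    have i1 := majorant_integrable |c.re| ha h1
    have i2 := majorant_integrable |c.re| ha (zero_lt_one.trans_le hζ : (0:ℝ) < ζ.re)
    simp only [one_re] at i1
    refine setIntegral_mono_on i2 i1 measurableSet_Ioi fun s hs => ?_
    have hs' : (0:ℝ) < s := hs
    gcongr

/-- linear growth of `S` on `Re ζ ≥ 1`. -/
lemma exists_S_bound {a : ℂ} (b : ℂ) (ha : -1 < a.re) :
    ∃ C : ℝ, 0 ≤ C ∧ ∀ ζ : ℂ, 1 ≤ ζ.re → ‖KU.S a b ζ‖ ≤ C * (1 + ‖ζ‖) := by
  have ha1 : 0 < (a + 1).re := by simp; linarith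
  have ha2 : 0 < (a + 2).re := by simp; linarith
  obtain ⟨M1, hM1, h1⟩ := exists_J_bound (b - a - 1) ha1
  obtain ⟨M2, hM2, h2⟩ := exists_J_bound (b - a - 1) ha2
  refine ⟨((1 + ‖b‖) * M1 + M2) / ‖Gamma (a + 1)‖, by positivity, fun ζ hζ => ?_⟩
  unfold KU.S
  rw [norm_div, div_mul_eq_mul_div]
  gcongr
  calc ‖(ζ - I * b) * J (a + 1) (b - a - 1) ζ + I * ζ * J (a + 2) (b - a - 1) ζ‖
      ≤ ‖(ζ - I * b)‖ * ‖J (a + 1) (b - a - 1) ζ‖ + ‖I * ζ‖ * ‖J (a + 2) (b - a - 1) ζ‖ := by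
        refine (norm_add_le _ _).trans ?_
        rw [norm_mul, norm_mul]
    _ ≤ (‖ζ‖ + ‖b‖) * M1 + ‖ζ‖ * M2 := by
        have e1 : ‖ζ - I * b‖ ≤ ‖ζ‖ + ‖b‖ := by
          refine (norm_sub_le _ _).trans ?_
          simp
        have e2 : ‖I * ζ‖ = ‖ζ‖ := by simp
        rw [e2]
        have := h1 ζ hζ
        have := h2 ζ hζ
        gcongr
    _ ≤ ((1 + ‖b‖) * M1 + M2) * (1 + ‖ζ‖) := by
        have := norm_nonneg ζ
        have := norm_nonneg b
        have : 0 ≤ ‖b‖ * M1 * ‖ζ‖ := by positivity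
        nlinarith

/-- `Qinf` is a slow solution. -/
theorem isSlow_Qinf (d : ℕ) (w : ℝ) : IsSlow d w (Qinf d w) (Qinf' d w) := by
  set a : ℂ := aE 0 w 0 with ha
  set b : ℂ := bE d 0 with hb
  have ha' : a = -(I * w) := by simp [ha, aE]
  have hb' : b = (d:ℂ) / 2 := by simp [hb, bE]
  have hare : -1 < a.re := by rw [ha']; simp
  have ha1 : -1 < (a + 1).re := by rw [ha']; simp
  obtain ⟨C1, hC1, h1⟩ := exists_S_bound b hare
  obtain ⟨C2, hC2, h2⟩ := exists_S_bound (b + 1) ha1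
  refine ⟨fun ζ => KU.S a b ζ, fun ζ => -a * KU.S (a + 1) (b + 1) ζ, fun z hz => KU.hasDerivAt_S b hare hz,
    fun z hz => ?_, ⟨C1 + ‖a‖ * C2, 1, fun z hz => ⟨?_, ?_⟩⟩, fun r hr => ⟨rfl, ?_⟩⟩
  · refine (hasDerivAt_S' b hare hz).congr_deriv ?_
    have hode := S_ode b hare hz
    have hz0 : z ≠ 0 := by rintro rfl; simp at hz
    rw [eq_div_iff hz0]
    have hw : I * a = (w : ℂ) := by
      rw [ha']; linear_combination (-(w:ℂ)) * Complex.I_sq
    rw [hw] at hode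
    rw [← hb']
    linear_combination hode
  · rw [pow_one]
    refine (h1 z hz).trans ?_
    have := norm_nonneg z
    gcongr
    have : 0 ≤ ‖a‖ * C2 := by positivity
    linarith
  · rw [pow_one, norm_mul, norm_neg]
    calc ‖a‖ * ‖KU.S (a + 1) (b + 1) z‖ ≤ ‖a‖ * (C2 * (1 + ‖z‖)) := by
          have := h2 z hz; gcongr
      _ = (‖a‖ * C2) * (1 + ‖z‖) := by ring
      _ ≤ (C1 + ‖a‖ * C2) * (1 + ‖z‖) := by
          have := norm_nonneg z
          gcongr; linarith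
  · show dG a b r = _
    unfold dG KU.G
    push_cast
    ring

/-- The sign data of the certificate. -/
structure SignData (d : ℕ) (Rm Rp wm wp : ℝ) : Prop where
  ne : ∀ w ∈ Icc wm wp, ∀ R ∈ Icc Rm Rp, Qinf d w R ≠ 0
  sRm : ∀ w ∈ Icc wm wp, 0 < (Qinf' d w Rm / Qinf d w Rm).re
  sRp : ∀ w ∈ Icc wm wp, (Qinf' d w Rp / Qinf d w Rp).re < 0
  swm : ∀ R ∈ Icc Rm Rp, 0 < (Qinf' d wm R / Qinf d wm R).im
  swp : ∀ R ∈ Icc Rm Rp, (Qinf' d wp R / Qinf d wp R).im < 0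

/-- **[LinExt]** -/
theorem FarPar.linExt {d : ℕ} {r1 W θe θ0 θ x : ℝ} (h : FarPar d r1 W θe θ0 θ x)
    {Rm Rp wm wp : ℝ} (hRm : 0 < Rm) (hw : ∀ w ∈ Icc wm wp, |w| ≤ W)
    (hS : SignData d Rm Rp wm wp) :
    H505.LinExt d Rm Rp wm wp r1 (Qinf d) (Qinf' d) (kfar d r1) := by
  have hrat : ∀ w ∈ Icc wm wp, Qinf' d w r1 = kfar d r1 w * Qinf d w r1 := by
    intro w hw'
    have h1 := (isSlow_Qinf d w).ratio h.hd (hw w hw') h.r1_pos (h.one 0)
    rw [h1, kfar, zb]; ring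
  refine ⟨?_, ?_, ?_, hS.ne, ?_, hrat, hS.sRm, hS.sRp, hS.swm, hS.swp⟩
  · intro p hp
    have := continuousAt_F0 (X := ℝ × ℝ) (d := d) (l := 0) (w := fun p => p.1) (r := fun p => p.2)
      (lam := fun _ => 0) (x := p) (by simp) (hRm.trans_le hp.2.1) continuousAt_fst
      continuousAt_const continuousAt_snd
    exact this.continuousWithinAt
  · intro p hp
    have := continuousAt_F0' (X := ℝ × ℝ) (d := d) (l := 0) (w := fun p => p.1) (r := fun p => p.2)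
      (lam := fun _ => 0) (x := p) (by simp) (hRm.trans_le hp.2.1) continuousAt_fst
      continuousAt_const continuousAt_snd
    exact this.continuousWithinAt
  · intro w hw'
    have h1 := (isSlow_Qinf d w).radODE
    exact ⟨fun r hr => h1.h1 r (hRm.trans hr.1), fun r hr => h1.h2 r (hRm.trans hr.1)⟩
  · intro w hw' h0
    have h1 := hrat w hw'
    rw [h0, mul_zero] at h1
    rcases F0_ne_or (d := d) (l := 0) (w := w) (lam := 0) (by simp) h.r1_pos with h2 | h2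
    · exact h2 h0
    · exact h2 h1

end Vale.Agent.P139.H460
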