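import Vale.Agent.P139.H460.Far2

/-!
# P139 / H460 / Far3 : the far solution with a given value at `r₁`
-/

open MeasureTheory Set Filter Topology Complex Metric

namespace Vale.Agent.P139.H460

lemma norm_slow_sub_base_le {m : ℕ} {η z1 b κ ζ : ℂ} {x s t Λ θ0 θ L : ℝ}
    (hp : Par m η z1 x s t Λ θ0 θ L) (ha : Adm s t Λ θ0 b κ ζ) :
    ∀ z ∈ HP x, ‖slow m η b κ ζ z1 z - ζ‖ ≤ 2 * KK s t * ((1 + Λ) * θ) / x := by
  intro z hz
  have hx0 := hp.x_pos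
  have hθ := hp.θ_nonneg
  have hN := norm_Nl_le (κ := κ) hp ha.hκ (norm_slow_le hp ha)
  have hKK := KK_nonneg s t
  have hΛ := hp.hΛ
  have key : ∀ z ∈ HP x, ‖S b (Nl m η κ (slow m η b κ ζ z1)) z‖ ≤ KK s t * ((1 + Λ) * θ) / x := by
    intro z hz
    refine (norm_S_le hp.hx hz ha.hb2 ha.hbs ha.hbt hN).trans ?_
    have : x < z.re := hz
    gcongr
  rw [slow_eq hp ha hz]
  unfold stp
  rw [add_sub_cancel_left]
  calc ‖S b (Nl m η κ (slow m η b κ ζ z1)) z - S b (Nl m η κ (slow m η b κ ζ z1)) z1‖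
      ≤ ‖S b (Nl m η κ (slow m η b κ ζ z1)) z‖ + ‖S b (Nl m η κ (slow m η b κ ζ z1)) z1‖ :=
        norm_sub_le _ _
    _ ≤ KK s t * ((1 + Λ) * θ) / x + KK s t * ((1 + Λ) * θ) / x :=
        add_le_add (key z hz) (key z1 hp.hz1)
    _ = _ := by ring

lemma norm_zk_le' {a w W : ℝ} (hw : |w| ≤ W) {z : ℂ} (hz : 0 < z.re) :
    ‖zk a w z‖ ≤ Real.exp (Real.pi * W) * ‖z‖ ^ (-a) := by
  have hz0 : 0 < ‖z‖ := by
    rw [norm_pos_iff]; rintro rfl; simp at hz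
  unfold zk k0
  rw [Complex.norm_exp, Real.rpow_def_of_pos hz0, ← Real.exp_add]
  apply Real.exp_le_exp.2
  have h1 : ((I * (w:ℂ) - a) * Complex.log z).re = - (a * Real.log ‖z‖) - w * z.arg := by
    simp [Complex.log_re, Complex.log_im]
  rw [h1]
  have h3 : -(w * z.arg) ≤ Real.pi * W := by
    calc -(w * z.arg) ≤ |w * z.arg| := neg_le_abs _
      _ = |w| * |z.arg| := abs_mul _ _
      _ ≤ W * Real.pi :=
        mul_le_mul hw (Complex.abs_arg_le_pi z) (abs_nonneg _) ((abs_nonneg w).trans hw)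
      _ = _ := mul_comm _ _
  linarith

/-- The far solution. -/
structure FarSol (d m : ℕ) (r1 W θ x w : ℝ) (y : ℂ) (Qb Qb1 : ℝ → ℂ) : Prop where
  val : Qb r1 = y
  der : Qb1 r1 = Kfar d r1 m w y
  ode : RadODE d (am m) w (fun r => ‖Qb r‖ ^ (2 * m)) Qb Qb1 {r | 0 < r ∧ x < r ^ 2 / 4}
  ne : ∀ r, 0 < r → x < r ^ 2 / 4 → Qb r ≠ 0
  bd : ∀ r, 0 < r → x < r ^ 2 / 4 → ‖Qb r‖ ≤ θ * (r ^ 2 / 4) ^ (-(am m))
  holo : ∃ f : ℂ → ℂ, DifferentiableOn ℂ f {z | x < z.re} ∧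
    (∀ z : ℂ, x < z.re → ‖f z‖ ≤ Real.exp (Real.pi * W) * ‖z‖ ^ (-(am m))) ∧
    ∀ r > 0, x < r ^ 2 / 4 → Qb r = f ((r ^ 2 / 4 : ℝ) : ℂ)

lemma am_eq (m : ℕ) : am m = 1 / (2 * (m:ℝ)) := by unfold am; push_cast; rfl

section

variable {d : ℕ} {r1 W θe θ0 θ x : ℝ}

theorem FarPar.farSol (h : FarPar d r1 W θe θ0 θ x) {c0 : ℝ} (hc0 : 0 < c0) :
    ∀ᶠ m : ℕ in atTop, ∀ w : ℝ, |w| ≤ W → ∀ y : ℂ, c0 ≤ ‖y‖ → ‖y‖ ≤ θe →
      ∃ Qb Qb1 : ℝ → ℂ, FarSol d m r1 W θ x w y Qb Qb1 := by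
  have hθ0 : 0 ≤ θ := h.θe_nonneg.trans (h.h1.le.trans h.h2.le)
  have hx1 : 1 ≤ x := (h.non 0).hx
  have hx0 : 0 < x := by linarith
  set K0 := KK ((d:ℝ) / 2 - 2) (2 * W) with hK0
  have hlim : Tendsto (fun m : ℕ => 4 * (K0 * (1 * θ ^ (2 * m + 1)) / x)) atTop (𝓝 0) := by
    have h1 : Tendsto (fun m : ℕ => (θ ^ 2) ^ m) atTop (𝓝 0) :=
      tendsto_pow_atTop_nhds_zero_of_lt_one (by positivity) (by nlinarith [h.h3])
    have h2 := (h1.const_mul (4 * (K0 * θ / x)))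
    rw [mul_zero] at h2
    refine h2.congr fun m => ?_
    rw [pow_succ θ (2 * m), pow_mul]; ring
  filter_upwards [h.div_le, eventually_ge_atTop 1,
    hlim.eventually (gt_mem_nhds (show 0 < c0 / 2 by positivity))] with m hm hm1 hm2 w hw y hy hy'
  set a := am m with ha
  have ha0 : 0 ≤ a := am_nonneg m
  have ha1 : a ≤ 1 / 2 := am_le hm1
  set ζ := y / zk a w (zb r1) with hζ
  have hζθ : ‖ζ‖ ≤ θ0 := hm w y hy'
  have hadm : Adm ((d:ℝ) / 2 - 2) (2 * W) (LamC d W) θ0 (bb d a w) (kk d a w) ζ :=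
    adm_of h.hd ha0 ha1 hw hζθ
  have hadm1 : Adm ((d:ℝ) / 2 - 2) (2 * W) (LamC d W) 1 (bb d a w) (kk d a w) 1 :=
    adm_of h.hd ha0 ha1 hw (by simp)
  have hp := h.non m
  have hp0 := h.lin m
  have hpl := h.one m
  have hzk : zk a w (zb r1) ≠ 0 := zk_ne_zero _ _ _
  have hζn : c0 ≤ ‖ζ‖ := by
    rw [hζ, norm_div, norm_zk_zb h.r1_pos, Real.exp_neg, div_inv_eq_mul]
    have h1 : 0 ≤ a * Real.log (r1 ^ 2 / 4) := mul_nonneg ha0 (Real.log_nonneg h.one_le)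
    have h2 : 1 ≤ Real.exp (a * Real.log (r1 ^ 2 / 4)) := Real.one_le_exp h1
    calc c0 ≤ ‖y‖ := hy
      _ ≤ ‖y‖ * Real.exp (a * Real.log (r1 ^ 2 / 4)) := le_mul_of_one_le_right (norm_nonneg _) h2
  -- nonvanishing
  have hne : ∀ z ∈ HP x, slow m 1 (bb d a w) (kk d a w) ζ (zb r1) z ≠ 0 := by
    intro z hz h0
    have e1 := norm_slow_sub_lin_le hp hp0 hadm z hz
    rw [h0, zero_sub, norm_neg, norm_one] at e1
    have hpl' : Par m 0 (zb r1) x ((d:ℝ) / 2 - 2) (2 * W) (LamC d W) 1 2 0 := hpl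
    rw [slow_lin hp0 hadm hpl' hadm1 hz, norm_mul] at e1
    have e2 := norm_slow_sub_base_le hpl hadm1 z hz
    have e3 := e2.trans h.half
    have e4 : (1:ℝ) / 2 ≤ ‖slow m 0 (bb d a w) (kk d a w) 1 (zb r1) z‖ := by
      have := norm_sub_norm_le (1:ℂ) (slow m 0 (bb d a w) (kk d a w) 1 (zb r1) z)
      rw [norm_one, norm_sub_rev] at this
      linarith
    have e5 : c0 * (1 / 2) ≤ ‖ζ‖ * ‖slow m 0 (bb d a w) (kk d a w) 1 (zb r1) z‖ := by gcongr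
    have : c0 * (1 / 2) ≤ 4 * (K0 * (1 * θ ^ (2 * m + 1)) / x) := e5.trans e1
    linarith
  refine ⟨Qf d m 1 a w ζ (zb r1), Qf1 d m 1 a w ζ (zb r1), ?_, ?_, ?_, ?_, ?_, ?_⟩
  · show QQ d m 1 a w ζ (zb r1) (zb r1) = y
    rw [QQ, slow_base hp hadm, hζ]; field_simp
  · show (r1 / 2 : ℝ) * QQ1 d m 1 a w ζ (zb r1) (zb r1) = _
    rw [QQ1, slow_base hp hadm, Kfar, Ef]
  · have e : a = 1 / (2 * (m:ℝ)) := by rw [ha, am_eq]
    have := radODE_Qf_nonlinear (d := d) (w := w) (ζ := ζ) hm1 hp (by rw [← e]; exact hadm)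
      (S := {r | 0 < r ∧ x < r ^ 2 / 4}) (fun r hr => hr)
    rw [← e] at this
    exact this
  · intro r hr hrx
    exact mul_ne_zero (zk_ne_zero _ _ _) (hne _ (ofReal_mem_HP hrx))
  · intro r hr hrx
    have hpos : 0 < r ^ 2 / 4 := by positivity
    show ‖QQ d m 1 a w ζ (zb r1) ((r ^ 2 / 4 : ℝ) : ℂ)‖ ≤ _
    rw [QQ, norm_mul, norm_zk_real hpos, mul_comm θ, Real.rpow_def_of_pos hpos]
    refine mul_le_mul (Real.exp_le_exp.2 (by linarith [mul_comm (Real.log (r^2/4)) (-a)]))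
      (norm_slow_le hp hadm _ (ofReal_mem_HP hrx)) (norm_nonneg _) (Real.exp_pos _).le
  · refine ⟨QQ d m 1 a w ζ (zb r1), fun z hz => ?_, fun z hz => ?_, fun r _ _ => rfl⟩
    · exact (hasDerivAt_QQ hp hadm hz).differentiableAt.differentiableWithinAt
    · rw [QQ, norm_mul]
      have h1 := norm_zk_le' (a := a) hw (hx0.trans hz)
      have h2 := (norm_slow_le hp hadm z hz).trans h.h3.le
      calc ‖zk a w z‖ * ‖slow m 1 (bb d a w) (kk d a w) ζ (zb r1) z‖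
          ≤ (Real.exp (Real.pi * W) * ‖z‖ ^ (-a)) * 1 := by gcongr
        _ = _ := mul_one _

end

end Vale.Agent.P139.H460
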