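import Vale.Agent.P139.H460.Far3

/-!
# P139 / H460 / Far4 : decay weight, the limit function, extraction of families
-/

open MeasureTheory Set Filter Topology Complex Metric

namespace Vale.Agent.P139.H460

open Vale.Agent.P139.KU

section

variable {d : ℕ} {r1 W θe θ0 θ x : ℝ}

lemma FarPar.two_le (h : FarPar d r1 W θe θ0 θ x) : 2 ≤ r1 := by
  have h1 := h.one_le
  have h2 := h.r1_pos
  nlinarith

/-- The weight `(r²/4)^{-a}` against `(1+r)^{-2a}`. -/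
theorem FarPar.weight (h : FarPar d r1 W θe θ0 θ x) :
    ∀ᶠ m : ℕ in atTop, ∀ r : ℝ, r1 ≤ r →
      θ * (r ^ 2 / 4) ^ (-(am m)) ≤ (1 + θ) / 2 * (1 + r) ^ (-(2 * am m)) := by
  have hθ0 : 0 ≤ θ := h.θe_nonneg.trans (h.h1.le.trans h.h2.le)
  have hlim : Tendsto (fun m : ℕ => θ * (4:ℝ) ^ (2 * am m)) atTop (𝓝 θ) := by
    have h1 : Tendsto (fun m : ℕ => 2 * am m) atTop (𝓝 0) := by
      simpa using tendsto_am.const_mul 2
    have h2 : Tendsto (fun m : ℕ => (4:ℝ) ^ (2 * am m)) atTop (𝓝 1) := by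
      have h3 := (Real.continuousAt_const_rpow (a := 4) (b := 0) (by norm_num)).tendsto.comp h1
      simpa [Function.comp_def] using h3
    simpa using h2.const_mul θ
  have hlt : θ < (1 + θ) / 2 := by linarith [h.h3]
  filter_upwards [hlim.eventually (gt_mem_nhds hlt)] with m hm r hr
  have hr2 : 2 ≤ r := h.two_le.trans hr
  have ha := am_nonneg m
  have e1 : (r ^ 2 / 4) ^ (-(am m)) = (r / 2) ^ (-(2 * am m)) := by
    rw [show r ^ 2 / 4 = (r / 2) ^ (2:ℕ) by ring, ← Real.rpow_natCast, ← Real.rpow_mul (by linarith)]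
    congr 1
    push_cast
    ring
  have e2 : (r / 2) ^ (-(2 * am m)) ≤ ((1 + r) / 4) ^ (-(2 * am m)) :=
    Real.rpow_le_rpow_of_nonpos (by linarith) (by linarith) (by linarith)
  have e3 : ((1 + r) / 4) ^ (-(2 * am m)) = (1 + r) ^ (-(2 * am m)) * 4 ^ (2 * am m) := by
    rw [Real.div_rpow (by linarith) (by norm_num), Real.rpow_neg (by norm_num : (0:ℝ) ≤ 4),
      div_inv_eq_mul]
  have hpos : 0 ≤ (1 + r) ^ (-(2 * am m)) := Real.rpow_nonneg (by linarith) _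
  calc θ * (r ^ 2 / 4) ^ (-(am m)) ≤ θ * ((1 + r) ^ (-(2 * am m)) * 4 ^ (2 * am m)) := by
        rw [e1, ← e3]; gcongr
    _ = (θ * 4 ^ (2 * am m)) * (1 + r) ^ (-(2 * am m)) := by ring
    _ ≤ (1 + θ) / 2 * (1 + r) ^ (-(2 * am m)) := by gcongr

end

/-- The function in `UP.zero` is controlled by `Qinf' / Qinf`. -/
theorem exists_J_le (d : ℕ) {Rm Rp wm wp : ℝ} (hRm : 0 < Rm) (hwm : 0 < wm)
    (hne : ∀ w ∈ Icc wm wp, ∀ R ∈ Icc Rm Rp, Qinf d w R ≠ 0) :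
    ∃ C : ℝ, 0 ≤ C ∧ ∀ w ∈ Icc wm wp, ∀ R ∈ Icc Rm Rp,
      ‖J (1 - I * (w : ℂ)) ((d : ℂ) / 2 - 1 + I * (w : ℂ)) ((R ^ 2 / 4 : ℝ) : ℂ)‖ ≤
        C * ‖Qinf' d w R / Qinf d w R‖ := by
  have hcQ : ContinuousOn (fun p : ℝ × ℝ => Qinf d p.1 p.2) (Icc wm wp ×ˢ Icc Rm Rp) := by
    intro p hp
    have := continuousAt_F0 (X := ℝ × ℝ) (d := d) (l := 0) (w := fun p => p.1) (r := fun p => p.2)
      (lam := fun _ => 0) (x := p) (by simp) (hRm.trans_le hp.2.1) continuousAt_fst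
      continuousAt_const continuousAt_snd
    exact this.continuousWithinAt
  obtain ⟨M1, hM1⟩ := (isCompact_Icc.prod isCompact_Icc).exists_bound_of_continuousOn hcQ
  have hcG : ContinuousOn (fun w : ℝ => Gamma (1 - I * (w : ℂ))) (Icc wm wp) := by
    intro w _
    have h1 : ContinuousAt Gamma (1 - I * (w : ℂ)) := by
      refine (Complex.differentiableAt_Gamma _ fun n hn => ?_).continuousAt
      have := congrArg Complex.re hn
      simp at this
      have h2 : (0:ℝ) ≤ n := Nat.cast_nonneg n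
      linarith
    exact (ContinuousAt.comp (f := fun w : ℝ => 1 - I * (w : ℂ)) (g := Gamma) h1
      (by fun_prop)).continuousWithinAt
  obtain ⟨M2, hM2⟩ := isCompact_Icc.exists_bound_of_continuousOn hcG
  refine ⟨|M1| * |M2| / (Rm / 2 * wm), by positivity, fun w hw R hR => ?_⟩
  have hw0 : 0 < w := hwm.trans_le hw.1
  have hR0 : 0 < R := hRm.trans_le hR.1
  have hQ := hne w hw R hR
  have hare : 0 < (1 - I * (w : ℂ)).re := by simp
  have hΓ : Gamma (1 - I * (w : ℂ)) ≠ 0 := Complex.Gamma_ne_zero_of_re_pos hare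
  have e2 : Qinf' d w R = ((R : ℂ) / 2) * (I * w) *
      (J (1 - I * (w : ℂ)) ((d : ℂ) / 2 - 1 + I * (w : ℂ)) ((R ^ 2 / 4 : ℝ) : ℂ) /
        Gamma (1 - I * (w : ℂ))) := by
    rw [Qinf'_eq, KU.G, S_eq_of_pos _ hare (rho_pos hR0)]
    congr 3
    ring
  have e3 : J (1 - I * (w : ℂ)) ((d : ℂ) / 2 - 1 + I * (w : ℂ)) ((R ^ 2 / 4 : ℝ) : ℂ) =
      (Qinf' d w R / Qinf d w R) * (Qinf d w R * Gamma (1 - I * (w : ℂ))) /
        (((R : ℂ) / 2) * (I * w)) := by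
    have hRc : (R : ℂ) ≠ 0 := by exact_mod_cast hR0.ne'
    have hwc : (w : ℂ) ≠ 0 := by exact_mod_cast hw0.ne'
    rw [div_mul_eq_mul_div, e2]
    field_simp
  rw [e3, norm_div, norm_mul, norm_mul, norm_mul]
  have n1 : ‖(R : ℂ) / 2‖ = R / 2 := by
    rw [norm_div, norm_real, Real.norm_of_nonneg hR0.le]; norm_num
  have n2 : ‖I * (w : ℂ)‖ = w := by
    rw [norm_mul, norm_I, one_mul, norm_real, Real.norm_of_nonneg hw0.le]
  rw [n1, n2]
  have b1 : ‖Qinf d w R‖ ≤ |M1| := (hM1 (w, R) ⟨hw, hR⟩).trans (le_abs_self _)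
  have b2 : ‖Gamma (1 - I * (w : ℂ))‖ ≤ |M2| := (hM2 w hw).trans (le_abs_self _)
  have b3 : Rm / 2 * wm ≤ R / 2 * w := by
    have := hR.1; have := hw.1; gcongr
  have b4 : 0 < Rm / 2 * wm := by positivity
  calc ‖Qinf' d w R / Qinf d w R‖ * (‖Qinf d w R‖ * ‖Gamma (1 - I * (w : ℂ))‖) / (R / 2 * w)
      ≤ ‖Qinf' d w R / Qinf d w R‖ * (|M1| * |M2|) / (Rm / 2 * wm) := by gcongr
    _ = |M1| * |M2| / (Rm / 2 * wm) * ‖Qinf' d w R / Qinf d w R‖ := by ring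

/-- Diagonal extraction. -/
theorem exists_family {α : Type*} {P : ℕ → ℝ → α → Prop}
    (h : ∀ ε > 0, ∀ᶠ m : ℕ in atTop, ∃ a, P m ε a) :
    ∃ (e : ℕ → ℝ) (m0 : ℕ), Tendsto e atTop (𝓝 0) ∧ ∀ m, m0 ≤ m → 0 < e m ∧ ∃ a, P m (e m) a := by
  have h1 : ∀ k : ℕ, ∃ N : ℕ, ∀ m ≥ N, ∃ a, P m (1 / ((k:ℝ) + 1)) a := fun k =>
    eventually_atTop.1 (h _ (by positivity))
  choose N hN using h1
  classical
  set K : ℕ → ℕ := fun m => Nat.findGreatest (fun k => N k ≤ m) m with hK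
  refine ⟨fun m => 1 / ((K m : ℝ) + 1), N 0, ?_, fun m hm => ⟨by positivity, ?_⟩⟩
  · have hKt : Tendsto K atTop atTop := by
      rw [Filter.tendsto_atTop]
      intro k
      filter_upwards [eventually_ge_atTop (max k (N k))] with m hm
      exact Nat.le_findGreatest ((le_max_left _ _).trans hm) ((le_max_right _ _).trans hm)
    exact tendsto_one_div_add_atTop_nhds_zero_nat.comp hKt
  · have h2 : N (K m) ≤ m := Nat.findGreatest_spec (P := fun k => N k ≤ m) (Nat.zero_le m) hm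
    exact hN (K m) m h2

end Vale.Agent.P139.H460
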