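import Vale.Agent.P139.H460.FF6

/-!
# P139 / H460 / Match1 : quantitative facts about the far field used in the matching
-/

open MeasureTheory Set Filter Topology Complex

namespace Vale.Agent.P139.H460


/-- log-derivative constant of the linear slow solution at the base point. -/
noncomputable def Kf (d : ℕ) (z1 : ℂ) (a w : ℝ) : ℂ :=
  slow1 0 0 (bb d a w) (kk d a w) 1 z1 z1 + k0 a w / z1

/-- exit derivative of the nonlinear far field, as a function of the value `v = Q(r₁)`. -/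
noncomputable def Ef (d m : ℕ) (z1 : ℂ) (a w : ℝ) (v : ℂ) : ℂ :=
  zk a w z1 * (slow1 m 1 (bb d a w) (kk d a w) (v / zk a w z1) z1 z1
    + k0 a w / z1 * (v / zk a w z1))

lemma continuous_k0 : Continuous (fun p : ℝ × ℝ => k0 p.1 p.2) := by unfold k0; fun_prop
lemma continuous_bb (d : ℕ) : Continuous (fun p : ℝ × ℝ => bb d p.1 p.2) := by
  unfold bb k0; fun_prop
lemma continuous_kk (d : ℕ) : Continuous (fun p : ℝ × ℝ => kk d p.1 p.2) := by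
  unfold kk k0; fun_prop
lemma continuous_zk (z : ℂ) : Continuous (fun p : ℝ × ℝ => zk p.1 p.2 z) := by
  unfold zk k0; fun_prop

section
variable {d : ℕ} {z1 : ℂ} {x W : ℝ}

/-- continuity of `Kf`. -/
lemma continuousOn_Kf (hd : 6 ≤ d)
    (hp : Par 0 0 z1 x ((d:ℝ) / 2 - 2) (2 * W) (LamC d W) 1 2 0) :
    ContinuousOn (fun p : ℝ × ℝ => Kf d z1 p.1 p.2) (Icc 0 (1/2) ×ˢ Icc (-W) W) := by
  have ha : ∀ p ∈ (Icc 0 (1/2) ×ˢ Icc (-W) W : Set (ℝ × ℝ)),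
      Adm ((d:ℝ) / 2 - 2) (2 * W) (LamC d W) 1 (bb d p.1 p.2) (kk d p.1 p.2) 1 := by
    intro p hp'
    exact adm_of hd hp'.1.1 hp'.1.2 (abs_le.2 hp'.2) (by simp)
  have h1 := continuousOn_slow1_param (X := ℝ × ℝ) (A := Icc 0 (1/2) ×ˢ Icc (-W) W)
    (b := fun p => bb d p.1 p.2) (κ := fun p => kk d p.1 p.2) (ζ := fun _ => 1) hp ha
    (continuous_bb d).continuousOn (continuous_kk d).continuousOn continuousOn_const
  have h2 : ContinuousOn (fun p : ℝ × ℝ => slow1 0 0 (bb d p.1 p.2) (kk d p.1 p.2) 1 z1 z1)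
      (Icc 0 (1/2) ×ˢ Icc (-W) W) :=
    h1.comp (f := fun p : ℝ × ℝ => (p, z1)) (by fun_prop) (fun p hp' => ⟨hp', hp.hz1⟩)
  unfold Kf
  exact h2.add (continuous_k0.div_const z1).continuousOn

/-- `slow1` is linear in `ζ` for `η = 0`. -/
lemma slow1_lin {m : ℕ} {b κ ζ : ℂ} {s t Λ θ0 θ L θ0' θ' L' : ℝ}
    (hp : Par m 0 z1 x s t Λ θ0 θ L) (ha : Adm s t Λ θ0 b κ ζ)
    (hp' : Par 0 0 z1 x s t Λ θ0' θ' L') (ha' : Adm s t Λ θ0' b κ 1) {z : ℂ} (hz : z ∈ HP x) :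
    slow1 m 0 b κ ζ z1 z = ζ * slow1 0 0 b κ 1 z1 z := by
  have hp'' : Par m 0 z1 x s t Λ θ0' θ' L' :=
    ⟨hp'.hx, hp'.hz1, hp'.hΛ, hp'.hθ0, hp'.hθ, by simpa using hp'.L_nonneg, by simp, hp'.hball,
      hp'.hcontr⟩
  have key : ∀ z ∈ HP x, slow m 0 b κ ζ z1 z = ζ * slow 0 0 b κ 1 z1 z := by
    intro z hz
    rw [slow_lin hp ha hp'' ha' hz, slow_zero_m m 0]
  have h1 := hasDerivAt_slow hp ha hz
  have h2 := (hasDerivAt_slow hp' ha' hz).const_mul ζ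
  refine h1.unique (h2.congr_of_eventuallyEq ?_)
  filter_upwards [(isOpen_HP x).mem_nhds hz] with y hy using key y hy

/-- The nonlinear exit derivative is exponentially close to the linear one. -/
lemma norm_Ef_sub_le (hd : 6 ≤ d) {m : ℕ} {θ0 θ L : ℝ}
    (hp : Par m 1 z1 x ((d:ℝ) / 2 - 2) (2 * W) (LamC d W) θ0 θ L)
    (hp0 : Par m 0 z1 x ((d:ℝ) / 2 - 2) (2 * W) (LamC d W) θ0 θ L) (hθ1 : θ ≤ 1)
    (hpl : Par 0 0 z1 x ((d:ℝ) / 2 - 2) (2 * W) (LamC d W) 1 2 0)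
    {a w : ℝ} (ha : 0 ≤ a) (ha' : a ≤ 1 / 2) (hw : |w| ≤ W) {v : ℂ} (hv : ‖v / zk a w z1‖ ≤ θ0) :
    ‖Ef d m z1 a w v - v * Kf d z1 a w‖ ≤ Real.exp (Real.pi * W) *
      (KK ((d:ℝ) / 2 - 2) (2 * W) * (1 + LamC d W * (4 * KK ((d:ℝ) / 2 - 2) (2 * W)))) *
        θ ^ (2 * m) := by
  set s := (d:ℝ) / 2 - 2
  set t := 2 * W
  set Λ := LamC d W
  have hadm : Adm s t Λ θ0 (bb d a w) (kk d a w) (v / zk a w z1) := adm_of hd ha ha' hw hv
  have hadm1 : Adm s t Λ 1 (bb d a w) (kk d a w) 1 := adm_of hd ha ha' hw (by simp)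
  have hz := zk_ne_zero a w z1
  have h1 := norm_slow1_sub_lin_le hp hp0 hadm z1 hp.hz1
  rw [slow1_lin hp0 hadm hpl hadm1 hp.hz1] at h1
  have e : Ef d m z1 a w v - v * Kf d z1 a w = zk a w z1 *
      (slow1 m 1 (bb d a w) (kk d a w) (v / zk a w z1) z1 z1 -
        v / zk a w z1 * slow1 0 0 (bb d a w) (kk d a w) 1 z1 z1) := by
    unfold Ef Kf
    field_simp
    ring
  rw [e, norm_mul]
  have hx0 := hp.x_pos
  have hθ := hp.θ_nonneg
  have hKK := KK_nonneg s t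
  have hΛ := hp.hΛ
  have h2 : ‖zk a w z1‖ ≤ Real.exp (Real.pi * W) :=
    (norm_zk_le ha (HP_mono hp.hx hp.hz1)).trans (Real.exp_le_exp.2 (by gcongr))
  have h3 : θ ^ (2 * m + 1) ≤ θ ^ (2 * m) := pow_le_pow_of_le_one hθ hθ1 (by omega)
  have h4 : ‖slow1 m 1 (bb d a w) (kk d a w) (v / zk a w z1) z1 z1 -
        v / zk a w z1 * slow1 0 0 (bb d a w) (kk d a w) 1 z1 z1‖ ≤
      (KK s t * (1 + Λ * (4 * KK s t))) * θ ^ (2 * m) := by
    refine h1.trans ?_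
    rw [norm_one, one_mul]
    have h5 : KK s t * θ ^ (2 * m + 1) / x ≤ KK s t * θ ^ (2 * m) := by
      refine (div_le_self (by positivity) hp.hx).trans (by gcongr)
    calc KK s t * (θ ^ (2 * m + 1) + Λ * (4 * (KK s t * θ ^ (2 * m + 1) / x)))
        ≤ KK s t * (θ ^ (2 * m) + Λ * (4 * (KK s t * θ ^ (2 * m)))) := by gcongr
      _ = _ := by ring
  calc _ ≤ Real.exp (Real.pi * W) * ((KK s t * (1 + Λ * (4 * KK s t))) * θ ^ (2 * m)) :=
        mul_le_mul h2 h4 (norm_nonneg _) (Real.exp_pos _).le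
    _ = _ := by ring

/-- continuity of the exit derivative. -/
lemma continuousOn_Ef {X : Type*} [TopologicalSpace X] [FirstCountableTopology X] (hd : 6 ≤ d)
    {m : ℕ} {θ0 θ L : ℝ} (hp : Par m 1 z1 x ((d:ℝ) / 2 - 2) (2 * W) (LamC d W) θ0 θ L)
    {a : ℝ} (ha : 0 ≤ a) (ha' : a ≤ 1 / 2) {A : Set X} {w : X → ℝ} {v : X → ℂ}
    (hwc : ContinuousOn w A) (hvc : ContinuousOn v A) (hw : ∀ p ∈ A, |w p| ≤ W)
    (hv : ∀ p ∈ A, ‖v p / zk a (w p) z1‖ ≤ θ0) :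
    ContinuousOn (fun p => Ef d m z1 a (w p) (v p)) A := by
  have haw : ContinuousOn (fun p => ((a, w p) : ℝ × ℝ)) A := continuousOn_const.prodMk hwc
  have hb : ContinuousOn (fun p => bb d a (w p)) A :=
    (continuous_bb d).comp_continuousOn (f := fun p => ((a, w p) : ℝ × ℝ)) haw
  have hk : ContinuousOn (fun p => kk d a (w p)) A :=
    (continuous_kk d).comp_continuousOn (f := fun p => ((a, w p) : ℝ × ℝ)) haw
  have hk0 : ContinuousOn (fun p => k0 a (w p)) A :=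
    continuous_k0.comp_continuousOn (f := fun p => ((a, w p) : ℝ × ℝ)) haw
  have hz : ContinuousOn (fun p => zk a (w p) z1) A :=
    (continuous_zk z1).comp_continuousOn (f := fun p => ((a, w p) : ℝ × ℝ)) haw
  have hζ : ContinuousOn (fun p => v p / zk a (w p) z1) A :=
    hvc.div hz (fun p _ => zk_ne_zero _ _ _)
  have ha2 : ∀ p ∈ A, Adm ((d:ℝ) / 2 - 2) (2 * W) (LamC d W) θ0 (bb d a (w p)) (kk d a (w p))
      (v p / zk a (w p) z1) := fun p hp' => adm_of hd ha ha' (hw p hp') (hv p hp')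
  have h1 := continuousOn_slow1_param (X := X) (A := A) (b := fun p => bb d a (w p))
    (κ := fun p => kk d a (w p)) (ζ := fun p => v p / zk a (w p) z1) hp ha2 hb hk hζ
  have hc : ContinuousOn (fun p : X => (p, z1)) A := by fun_prop
  have h2 : ContinuousOn (fun p => slow1 m 1 (bb d a (w p)) (kk d a (w p))
      (v p / zk a (w p) z1) z1 z1) A :=
    h1.comp (f := fun p : X => (p, z1)) hc (fun p hp' => ⟨hp', hp.hz1⟩)
  have h4 : ContinuousOn (fun p => k0 a (w p) / z1 * (v p / zk a (w p) z1)) A :=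
    (hk0.div_const z1).mul hζ
  have h5 := h2.add h4
  have h3 := hz.mul h5
  exact h3.congr (fun p _ => by rw [Ef]; simp only [Pi.mul_apply, Pi.add_apply])

end

/-- A linear slow solution on the real line, coming from an analytic function in the half plane. -/
structure IsSlow (d : ℕ) (w : ℝ) (U U1 : ℝ → ℂ) : Prop where
  ex : ∃ G G1 : ℂ → ℂ, (∀ z : ℂ, 0 < z.re → HasDerivAt G (G1 z) z) ∧
    (∀ z : ℂ, 0 < z.re → HasDerivAt G1 ((-((d:ℂ)/2 + I * z) * G1 z - w * G z) / z) z) ∧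
    (∃ C : ℝ, ∃ N : ℕ, ∀ z : ℂ, 1 ≤ z.re → ‖G z‖ ≤ C * (1 + ‖z‖) ^ N ∧
      ‖G1 z‖ ≤ C * (1 + ‖z‖) ^ N) ∧
    ∀ r : ℝ, 0 < r → U r = G ((r ^ 2 / 4 : ℝ) : ℂ) ∧ U1 r = (r / 2 : ℝ) * G1 ((r ^ 2 / 4 : ℝ) : ℂ)

lemma IsSlow.radODE {d : ℕ} {w : ℝ} {U U1 : ℝ → ℂ} (h : IsSlow d w U U1) :
    RadODE d 0 w (fun _ => 0) U U1 (Ioi 0) := by
  obtain ⟨G, G1, hG, hG1, -, hU⟩ := h.ex
  have hdz : ∀ r : ℝ, HasDerivAt (fun r : ℝ => (((r ^ 2 / 4 : ℝ)) : ℂ)) ((r / 2 : ℝ) : ℂ) r := by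
    intro r
    have h0 : HasDerivAt (fun r : ℝ => r ^ 2 / 4) (r / 2) r := by
      refine ((hasDerivAt_pow 2 r).div_const 4).congr_deriv ?_
      norm_num; ring
    exact h0.ofReal_comp
  have hz : ∀ r : ℝ, 0 < r → 0 < (((r ^ 2 / 4 : ℝ)) : ℂ).re := by
    intro r hr; rw [ofReal_re]; positivity
  constructor
  · intro r hr
    have h1 := HasDerivAt.scomp (𝕜 := ℝ) (h := fun r : ℝ => (((r ^ 2 / 4 : ℝ)) : ℂ)) r
      (hG _ (hz r hr)) (hdz r)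
    have h2 : HasDerivAt U (((r / 2 : ℝ) : ℂ) • G1 ((r ^ 2 / 4 : ℝ) : ℂ)) r := by
      refine h1.congr_of_eventuallyEq ?_
      filter_upwards [Ioi_mem_nhds hr] with s hs using (hU s hs).1
    refine h2.congr_deriv ?_
    rw [(hU r hr).2, smul_eq_mul]
  · intro r hr
    have h1 := HasDerivAt.scomp (𝕜 := ℝ) (h := fun r : ℝ => (((r ^ 2 / 4 : ℝ)) : ℂ)) r
      (hG1 _ (hz r hr)) (hdz r)
    have h3 : HasDerivAt (fun r : ℝ => ((r / 2 : ℝ) : ℂ)) (((1:ℝ) / 2 : ℝ) : ℂ) r :=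
      ((hasDerivAt_id r).div_const 2).ofReal_comp
    have h2 := h3.mul h1
    have h4 : HasDerivAt U1 _ r := h2.congr_of_eventuallyEq (by
      filter_upwards [Ioi_mem_nhds hr] with s hs using (hU s hs).2)
    refine h4.congr_deriv ?_
    rw [(hU r hr).1, (hU r hr).2]
    simp only [Function.comp_def, smul_eq_mul]
    have hr' : (r : ℂ) ≠ 0 := by exact_mod_cast (ne_of_gt hr)
    push_cast
    field_simp
    ring

/-- Log-derivative of a slow solution at the exit radius. -/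
theorem IsSlow.ratio {d : ℕ} (hd : 6 ≤ d) {w W x r1 : ℝ} {U U1 : ℝ → ℂ} (h : IsSlow d w U U1)
    (hw : |w| ≤ W) (hr1 : 0 < r1)
    (hpl : Par 0 0 ((r1 ^ 2 / 4 : ℝ) : ℂ) x ((d:ℝ) / 2 - 2) (2 * W) (LamC d W) 1 2 0) :
    U1 r1 = (r1 / 2 : ℝ) * (U r1 * Kf d ((r1 ^ 2 / 4 : ℝ) : ℂ) 0 w) := by
  obtain ⟨G, G1, hG, hG1, ⟨C, N, hgr⟩, hU⟩ := h.ex
  set z1 : ℂ := ((r1 ^ 2 / 4 : ℝ) : ℂ) with hz1
  have hadm1 : Adm ((d:ℝ) / 2 - 2) (2 * W) (LamC d W) 1 (bb d 0 w) (kk d 0 w) 1 :=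
    adm_of hd le_rfl (by norm_num) hw (by simp)
  have hx := hpl.hx
  have h1 := lin_unique hpl le_rfl hadm1 one_ne_zero (G := G) (G1 := G1) (C := C) (N := N)
    (fun z hz => hG z (lt_trans hpl.x_pos hz))
    (fun z hz => by
      refine (hG1 z (lt_trans hpl.x_pos hz)).congr_deriv ?_
      simp)
    (fun z hz => hgr z (hx.trans (le_of_lt hz))) z1 hpl.hz1
  have hq : QQ d 0 0 0 w 1 z1 z1 = zk 0 w z1 := by rw [QQ, slow_base hpl hadm1, mul_one]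
  have hq1 : QQ1 d 0 0 0 w 1 z1 z1 = zk 0 w z1 * Kf d z1 0 w := by
    rw [QQ1, slow_base hpl hadm1, mul_one, Kf]
  have h2 := h1.2
  rw [hq, hq1] at h2
  have h3 : G1 z1 = G z1 * Kf d z1 0 w := by
    have := zk_ne_zero 0 w z1
    apply mul_right_cancel₀ this
    rw [h2]; ring
  rw [(hU r1 hr1).1, (hU r1 hr1).2, ← hz1, h3]

end Vale.Agent.P139.H460
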