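import Vale.Agent.P139.H460.Far4
import Vale.Agent.P139.H505.Match2
import Vale.Agent.P139.H844.UPb
import Vale.Agent.P139.H307.Trans3
import Vale.Agent.P139.H560.Mono4
import Vale.Agent.P139.H312.P1fin

/-!
# P139 / H460 / PF1 : the matched family (`d = 13`)
-/

open MeasureTheory Set Filter Topology Complex Metric

namespace Vale.Agent.P139.H460

open Vale.Agent.P139.KU

/-- corners of the box -/
noncomputable def bwm : ℝ := H312.w0 - 1 / 10 ^ 6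
/-- corners of the box -/
noncomputable def bwp : ℝ := H312.w0 + 1 / 10 ^ 6
/-- corners of the box -/
noncomputable def bRm : ℝ := H312.R0 - 1 / 10 ^ 5
/-- corners of the box -/
noncomputable def bRp : ℝ := H312.R0 + 1 / 10 ^ 5

lemma bwm_pos : 0 < bwm := by unfold bwm H312.w0; norm_num
lemma bwm_le : bwm ≤ bwp := by unfold bwm bwp; linarith [show (0:ℝ) < 1 / 10 ^ 6 by norm_num]
lemma bwp_le : bwp ≤ 1 := by unfold bwp H312.w0; norm_num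
lemma bRm_pos : 0 < bRm := by unfold bRm H312.R0; norm_num
lemma bRm_lt : bRm < bRp := by unfold bRm bRp; linarith [show (0:ℝ) < 1 / 10 ^ 5 by norm_num]
lemma bRp_lt : bRp < 4 := by unfold bRp H312.R0; norm_num

lemma box_of_mem {w R : ℝ} (hw : w ∈ Icc bwm bwp) (hR : R ∈ Icc bRm bRp) : H312.Box w R := by
  have h1 : H312.w0 = 674128401314 / 10 ^ 12 := rfl
  have h2 : H312.R0 = 3264331003852 / 10 ^ 12 := rfl
  unfold bwm bwp bRm bRp at *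
  rw [h1] at hw
  rw [h2] at hR
  constructor
  · rw [abs_le]; exact ⟨by linarith [hw.1], by linarith [hw.2]⟩
  · rw [abs_le]; exact ⟨by linarith [hR.1], by linarith [hR.2]⟩

lemma mem_w {w : ℝ} (hw : w ∈ Icc bwm bwp) : 0.67403 ≤ w ∧ w ≤ 0.67422 := by
  obtain ⟨h1, h2⟩ := hw
  unfold bwm bwp H312.w0 at *
  constructor
  · refine le_trans ?_ h1; norm_num
  · refine le_trans h2 ?_; norm_num

lemma mem_R {R : ℝ} (hR : R ∈ Icc bRm bRp) : 3.26423 ≤ R ∧ R ≤ 3.26444 := by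
  obtain ⟨h1, h2⟩ := hR
  unfold bRm bRp H312.R0 at *
  constructor
  · refine le_trans ?_ h1; norm_num
  · refine le_trans h2 ?_; norm_num

/-- sign data -/
theorem signData : SignData 13 bRm bRp bwm bwp := by
  obtain ⟨h1, h2, h3⟩ := H312.sign_data
  exact ⟨fun w hw R hR => h1 w R (box_of_mem hw hR), fun w hw => (h2 w hw).1,
    fun w hw => (h2 w hw).2, fun R hR => (h3 R hR).1, fun R hR => (h3 R hR).2⟩

/-- the funnel -/
theorem funnel {η0 r1 : ℝ} (hη0 : 0 < η0) :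
    H505.Funnel 13 bRm bRp bwm bwp η0 r1 (Real.exp (-((min η0 (1/16)) ^ 2) / 4)) := by
  intro w hw R hR Z Z1 cZ cZ1 hZ h0 h1 r hr
  obtain ⟨a1, a2⟩ := mem_w hw
  obtain ⟨b1, b2⟩ := mem_R hR
  have h := (H560.hardwall a1 a2 b1 b2 cZ cZ1 hZ h0 h1).2.2.2.2.2 (min η0 (1/16))
    (le_min hη0.le (by norm_num)) (min_le_right _ _) r
    ⟨(add_le_add le_rfl (min_le_left _ _)).trans hr.1, hr.2⟩
  exact h

/-- The complete matched family. -/
structure MFam (η0 c r1 θz θe θ0 θ x C : ℝ) (e : ℕ → ℝ) (m0 : ℕ) (p : ℕ → ℝ × ℝ) (τ : ℕ → ℝ)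
    (u : ℕ → ℂ) (Y Y1 Qb Qb1 : ℕ → ℝ → ℂ) : Prop where
  η0_pos : 0 < η0
  c_pos : 0 < c
  hr1 : bRp + η0 < r1
  θz0 : 0 ≤ θz
  θz1 : θz < 1
  θze : θz < θe
  fp : FarPar 13 r1 1 θe θ0 θ x
  fun_ : H505.Funnel 13 bRm bRp bwm bwp η0 r1 θz
  C_pos : 0 < C
  he : Tendsto e atTop (𝓝 0)
  m0_pos : 1 ≤ m0
  M : ∀ m, m0 ≤ m → H505.Matched 13 m bRm bRp bwm bwp η0 c C r1 (e m) (Qinf 13) (Qinf' 13)
    (Kfar 13 r1) (p m) (τ m) (u m) (Y m) (Y1 m)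
  F : ∀ m, m0 ≤ m → FarSol 13 m r1 1 θ x (p m).2 (Y m r1) (Qb m) (Qb1 m)
  wt : ∀ m, m0 ≤ m → ∀ r : ℝ, r1 ≤ r →
      θ * (r ^ 2 / 4) ^ (-(am m)) ≤ (1 + θ) / 2 * (1 + r) ^ (-(2 * am m))

lemma mem_W {w : ℝ} (hw : w ∈ Icc bwm bwp) : |w| ≤ 1 := by
  rw [abs_of_pos (bwm_pos.trans_le hw.1)]; exact hw.2.trans bwp_le

/-- **Existence of the matched family.** -/
theorem exists_mfam : ∃ (η0 c r1 θz θe θ0 θ x C : ℝ) (e : ℕ → ℝ) (m0 : ℕ) (p : ℕ → ℝ × ℝ)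
    (τ : ℕ → ℝ) (u : ℕ → ℂ) (Y Y1 Qb Qb1 : ℕ → ℝ → ℂ),
    MFam η0 c r1 θz θe θ0 θ x C e m0 p τ u Y Y1 Qb Qb1 := by
  obtain ⟨η0, hη0, c, hc, hmatch⟩ := H505.matching (d := 13) (by norm_num)
    (H844.coreStatement 13 (by norm_num)) (H307.transitStatement (by norm_num))
    bRm_pos bRm_lt bRp_lt bwm_pos bwm_le bwp_le
  set θz := Real.exp (-((min η0 (1/16)) ^ 2) / 4) with hθz
  have hθz0 : 0 ≤ θz := (Real.exp_pos _).le
  have hθz1 : θz < 1 := by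
    rw [hθz, Real.exp_lt_one_iff]
    have : 0 < min η0 (1/16) := lt_min hη0 (by norm_num)
    have := pow_pos this 2
    linarith
  set θe := (3 * θz + 1) / 4 with hθe
  set θ0 := (2 * θz + 2) / 4 with hθ0
  set θ := (θz + 3) / 4 with hθ
  obtain ⟨r1, hr1, x, hx1, hx2, hfp⟩ := exists_farPar (d := 13) (W := 1) (θe := θe) (θ0 := θ0)
    (θ := θ) (by norm_num) zero_le_one (by rw [hθe]; linarith) (by rw [hθe, hθ0]; linarith)
    (by rw [hθ0, hθ]; linarith) (by rw [hθ]; linarith) (bRp + η0)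
  have hfun : H505.Funnel 13 bRm bRp bwm bwp η0 r1 θz := funnel hη0
  obtain ⟨C, hC, hM⟩ := hmatch r1 hr1 θz ⟨hθz0, hθz1⟩ θe (by rw [hθe]; linarith) hfun _ _ _
    (hfp.linExt bRm_pos (fun w hw => mem_W hw) signData) _ (hfp.farMap (fun w hw => mem_W hw))
  obtain ⟨e, m1, he, hfam⟩ := exists_family (α := (ℝ × ℝ) × ℝ × ℂ × (ℝ → ℂ) × (ℝ → ℂ))
    (P := fun m ε a => H505.Matched 13 m bRm bRp bwm bwp η0 c C r1 ε (Qinf 13) (Qinf' 13)
      (Kfar 13 r1) a.1 a.2.1 a.2.2.1 a.2.2.2.1 a.2.2.2.2) (fun ε hε => by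
        filter_upwards [hM ε hε] with m hm
        obtain ⟨p, τ, u, Y, Y1, h⟩ := hm
        exact ⟨(p, τ, u, Y, Y1), h⟩)
  -- lower bound
  obtain ⟨c2, hc2, C2, hC2, hlin⟩ := H844.linInf_bounds (d := 13) (by norm_num) bRm_pos
    (show bRp < r1 by linarith)
  have hCm := H505.tendsto_C_div_sqrt C
  have hev : ∀ᶠ m : ℕ in atTop, C / Real.sqrt ((2 * m : ℕ) : ℝ) < min (c2 / 2) (θe - θz) :=
    hCm.eventually (gt_mem_nhds (lt_min (by positivity) (by rw [hθe]; linarith)))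
  obtain ⟨m2, hm2⟩ := eventually_atTop.1 (hev.and ((hfp.farSol (c0 := c2 / 2) (by positivity)).and
    (hfp.weight.and (eventually_ge_atTop 1))))
  have key : ∀ m, max m1 m2 ≤ m → ∃ (a : (ℝ × ℝ) × ℝ × ℂ × (ℝ → ℂ) × (ℝ → ℂ)) (Qb Qb1 : ℝ → ℂ),
      H505.Matched 13 m bRm bRp bwm bwp η0 c C r1 (e m) (Qinf 13) (Qinf' 13)
      (Kfar 13 r1) a.1 a.2.1 a.2.2.1 a.2.2.2.1 a.2.2.2.2 ∧
      FarSol 13 m r1 1 θ x a.1.2 (a.2.2.2.1 r1) Qb Qb1 := by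
    intro m hm
    obtain ⟨-, a, ha⟩ := hfam m ((le_max_left _ _).trans hm)
    obtain ⟨h1, h2, h3, h4⟩ := hm2 m ((le_max_right _ _).trans hm)
    have hτ := ha.hτ
    have hτr : a.2.1 ≤ r1 := hτ.2.le.trans (by linarith)
    obtain ⟨Z, Z1, cZ, cZ1, hZ, hZ0, hZ10, hZb⟩ := hlin a.2.1 a.1.2 hτ.1.le hτ.2.le
      (bwm_pos.le.trans ha.hp.2.1) (ha.hp.2.2.trans bwp_le)
    have hRad : RadODE 13 0 a.1.2 (fun _ => 0) Z Z1 (Ioo a.2.1 r1) := by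
      refine ⟨fun r hr => hZ.h1 r (Ioo_subset_Icc_self hr), fun r hr => ?_⟩
      refine (hZ.h2 r (Ioo_subset_Icc_self hr)).congr_deriv ?_
      simp
    have hcl := (ha.close Z Z1 cZ.continuousOn cZ1.continuousOn hRad hZ0 hZ10 r1 ⟨hτr, le_rfl⟩).1
    have hz1 := hfun a.1.2 ha.hp.2 a.2.1 ⟨hτ.1.le, hτ.2.le⟩ Z Z1 cZ.continuousOn cZ1.continuousOn
      hRad hZ0 hZ10 r1 ⟨by linarith [hτ.2], le_rfl⟩
    have hz2 := (hZb r1 ⟨hτr, le_rfl⟩).1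
    have hlow : c2 / 2 ≤ ‖a.2.2.2.1 r1‖ := by
      have := norm_sub_norm_le (Z r1) (a.2.2.2.1 r1)
      rw [norm_sub_rev] at this
      have := h1.trans_le (min_le_left _ _)
      linarith
    have hup : ‖a.2.2.2.1 r1‖ ≤ θe := by
      have := norm_sub_norm_le (a.2.2.2.1 r1) (Z r1)
      have := h1.trans_le (min_le_right _ _)
      linarith
    obtain ⟨Qb, Qb1, hQ⟩ := h2 a.1.2 (mem_W ha.hp.2) _ hlow hup
    exact ⟨a, Qb, Qb1, ha, hQ⟩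
  choose! a Qb Qb1 hkey using key
  refine ⟨η0, c, r1, θz, θe, θ0, θ, x, C, e, max (max m1 m2) 1, fun m => (a m).1,
    fun m => (a m).2.1, fun m => (a m).2.2.1, fun m => (a m).2.2.2.1, fun m => (a m).2.2.2.2,
    Qb, Qb1, hη0, hc, hr1, hθz0, hθz1, by rw [hθe]; linarith, hfp, hfun, hC, he,
    le_max_right _ _, fun m hm => (hkey m ((le_max_left _ _).trans hm)).1,
    fun m hm => (hkey m ((le_max_left _ _).trans hm)).2, fun m hm => ?_⟩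
  exact (hm2 m ((le_max_right _ _).trans ((le_max_left _ _).trans hm))).2.2.1

end Vale.Agent.P139.H460
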