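import Vale.Agent.P139.H460.PF1
import Vale.Agent.P139.H505.Far
import Vale.Agent.P139.H644.SymbUP

/-!
# P139 / H460 / PF2 : the matched family in the forms used by the assembly
-/

open MeasureTheory Set Filter Topology Complex Metric

namespace Vale.Agent.P139.H460

open Vale.Agent.P139.KU Vale.Agent.P139.BU

lemma am_eq_aa (m : ℕ) : am m = aa m := by rw [am_eq]; rfl

section

variable {η0 c r1 θz θe θ0 θ x C : ℝ} {e : ℕ → ℝ} {m0 : ℕ} {p : ℕ → ℝ × ℝ} {τ : ℕ → ℝ}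
  {u : ℕ → ℂ} {Y Y1 Qb Qb1 : ℕ → ℝ → ℂ}

lemma MFam.θ_nonneg (h : MFam η0 c r1 θz θe θ0 θ x C e m0 p τ u Y Y1 Qb Qb1) : 0 ≤ θ :=
  h.fp.θe_nonneg.trans (h.fp.h1.le.trans h.fp.h2.le)

lemma MFam.r1_pos (h : MFam η0 c r1 θz θe θ0 θ x C e m0 p τ u Y Y1 Qb Qb1) : 0 < r1 := h.fp.r1_pos

lemma MFam.lt_sq (h : MFam η0 c r1 θz θe θ0 θ x C e m0 p τ u Y Y1 Qb Qb1) {r : ℝ} (hr : r1 ≤ r) :
    x < r ^ 2 / 4 := by
  have h1 := h.fp.x_lt
  have h2 := h.r1_pos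
  nlinarith

/-- The far solution in the form of `H505`. -/
theorem MFam.farSol5 (h : MFam η0 c r1 θz θe θ0 θ x C e m0 p τ u Y Y1 Qb Qb1) {m : ℕ}
    (hm : m0 ≤ m) :
    H505.FarSol 13 m (p m).2 r1 ((1 + θ) / 2) (Y m r1) (Kfar 13 r1 m (p m).2 (Y m r1)) (Qb m)
      (Qb1 m) := by
  have hF := h.F m hm
  refine ⟨?_, hF.val, hF.der, fun r hr => ?_⟩
  · have h1 := H505.radODE_mono hF.ode (t := Ici r1)
      (fun r hr => ⟨h.r1_pos.trans_le hr, h.lt_sq hr⟩)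
    rwa [am_eq_aa] at h1
  · have h1 := hF.bd r (h.r1_pos.trans_le hr) (h.lt_sq hr)
    have h2 := h.wt m hm r hr
    rw [am_eq_aa] at h1 h2
    exact h1.trans h2

lemma MFam.hθf (h : MFam η0 c r1 θz θe θ0 θ x C e m0 p τ u Y Y1 Qb Qb1) : (1 + θ) / 2 < 1 := by
  linarith [h.fp.h3]

lemma MFam.hθf0 (h : MFam η0 c r1 θz θe θ0 θ x C e m0 p τ u Y Y1 Qb Qb1) : 0 < (1 + θ) / 2 := by
  linarith [h.θ_nonneg]

lemma MFam.Rp_le (h : MFam η0 c r1 θz θe θ0 θ x C e m0 p τ u Y Y1 Qb Qb1) : bRp ≤ r1 := by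
  linarith [h.hr1, h.η0_pos]

/-- The far field, with constants independent of `m`. -/
theorem MFam.farField (h : MFam η0 c r1 θz θe θ0 θ x C e m0 p τ u Y Y1 Qb Qb1) {m : ℕ}
    (hm : m0 ≤ m) :
    H644.FarField m (r1 ^ 2 / 4) (Real.exp (Real.pi * 1)) (H505.Qf 13 (2 * m) (p m)) := by
  have hM := h.M m hm
  have hg := hM.glueF (by norm_num) bRm_pos h.Rp_le h.hθf.le (h.farSol5 hm)
  obtain ⟨f, hf, hfb, hfe⟩ := (h.F m hm).holo
  have hu0 : u m ≠ 0 := by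
    intro h0
    have := hM.hu
    rw [h0, norm_zero] at this
    exact zero_ne_one this
  refine ⟨fun z => (u m)⁻¹ * f z, ?_, ?_, ?_⟩
  · refine (hf.mono fun z hz => ?_).const_mul _
    exact lt_trans h.fp.x_lt hz
  · intro z hz
    have h1 := hfb z (lt_trans h.fp.x_lt hz)
    rw [norm_mul, norm_inv, hM.hu, inv_one, one_mul, ← am_eq_aa]
    exact h1
  · intro r hr hr'
    have hr1 : r1 ≤ r := by
      have := h.r1_pos
      by_contra hlt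
      push Not at hlt
      nlinarith
    have h1 := (hg.2 r hr1).1
    have h2 := hfe r hr (h.lt_sq hr1)
    show _ = (u m)⁻¹ * f ((r ^ 2 / 4 : ℝ) : ℂ)
    rw [← h2, ← h1, ← mul_assoc, inv_mul_cancel₀ hu0, one_mul]

/-- **[UP.zero]** -/
theorem MFam.zero (h : MFam η0 c r1 θz θe θ0 θ x C e m0 p τ u Y Y1 Qb Qb1) :
    Tendsto (fun m : ℕ => KU.J (1 - I * ((p m).2 : ℂ)) (((13 : ℕ) : ℂ) / 2 - 1 + I * ((p m).2 : ℂ))
    (((τ m) ^ 2 / 4 : ℝ) : ℂ)) atTop (𝓝 0) := by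
  obtain ⟨C', hC', hJ⟩ := exists_J_le 13 bRm_pos bwm_pos signData.ne
  have h1 : Tendsto (fun m => C' * e m) atTop (𝓝 0) := by simpa using h.he.const_mul C'
  refine squeeze_zero_norm' ?_ h1
  filter_upwards [eventually_ge_atTop m0] with m hm
  have hM := h.M m hm
  refine (hJ (p m).2 hM.hp.2 (τ m) ⟨hM.hτ.1.le, hM.hτ.2.le⟩).trans ?_
  gcongr
  exact hM.nsmall

lemma MFam.mem (h : MFam η0 c r1 θz θe θ0 θ x C e m0 p τ u Y Y1 Qb Qb1) {m : ℕ} (hm : m0 ≤ m) :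
    H312.Box (p m).2 (τ m) := by
  have hM := h.M m hm
  exact box_of_mem hM.hp.2 ⟨hM.hτ.1.le, hM.hτ.2.le⟩

end

end Vale.Agent.P139.H460
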